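import Vale.Agent.P006.V1.Theta
import Vale.Agent.P006.H357.Alg
import Mathlib.Analysis.Calculus.ContDiff.Defs
import Mathlib.Analysis.SpecialFunctions.Pow.Complex

/-!
P026, block POI: the abstract sextic data, the Moebius sums, the completed theta sums, and the two
mean-square statements `TB` (input) and `MB` (output).
-/

namespace Vale.Agent.P026Z.Poi

open Vale.Agent.P006 Vale.Agent.P006.V1 Vale.Agent.P006.HB
open scoped ComplexConjugate ContDiff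

/-- admissible elements: primary and prime to `2` -/
def Adm (n : O) : Prop := Primary n ∧ IsCoprime n 2

/-- squarefree admissible elements -/
def Sq (n : O) : Prop := Adm n ∧ Squarefree n

/-- smooth weights with compact support in `(0, ∞)` -/
def IsWt (W : ℝ → ℂ) : Prop :=
  ContDiff ℝ ∞ W ∧ ∃ a b : ℝ, 0 < a ∧ ∀ x, W x ≠ 0 → a ≤ x ∧ x ≤ b

/-- the twisted weight `W(x) x^{it}` -/
noncomputable def wt (W : ℝ → ℂ) (t x : ℝ) : ℂ := W x * (x : ℂ) ^ ((t : ℂ) * Complex.I)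

/-- class functions modulo `q` bounded by `1` -/
def Cls (q : O) (κ : O → ℂ) : Prop := Per q κ ∧ ∀ x, ‖κ x‖ ≤ 1

/-- The data used by the Poisson block. Intended meaning: `chi n u = (u/n)_6`,
`g n = conj(n/|n|) * gt 1 n`, `w b = sqrt(N b) * conj(b/|b|)^3`, `tau` the theta coefficient,
`Esg` a sign depending on classes modulo `q`. -/
structure Sext where
  q : O
  chi : O → O → ℂ
  g : O → ℂ
  Esg : O → O → ℂ
  w : O → ℂ
  tau : O → ℂ
  q_ne : q ≠ 0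
  chi_mul : ∀ n u v : O, Adm n → chi n (u * v) = chi n u * chi n v
  chi_mul_left : ∀ a b u : O, Adm a → Adm b → chi (a * b) u = chi a u * chi b u
  chi_one_left : ∀ u : O, chi 1 u = 1
  chi_per : ∀ n : O, Adm n → Per n (chi n)
  conj_mul : ∀ n u : O, Adm n → conj (chi n u) * chi n u = cop n u
  conj_eq : ∀ n u : O, Adm n → conj (chi n u) = chi n u ^ 5
  norm_g : ∀ n : O, Sq n → ‖g n‖ = 1
  g_mul : ∀ d n : O, Sq d → Sq n → IsCoprime d n → g (d * n) = g d * g n * chi n (d ^ 4)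
  pair : ∀ a b h : O, Sq a → Sq b → IsCoprime a b →
    rsum (a * b) (fun x => (conj (chi a x) * chi b x) * E (sq3 * (a * b)) (x * h)) =
      ((Real.sqrt (N a) * Real.sqrt (N b) : ℝ) : ℂ) *
        ((Esg a b * (mob a * mob b) * (g a * conj (g b))) * (chi a h * conj (chi b h)))
  Esg_per_left : ∀ b : O, Per q (fun a => Esg a b)
  Esg_per_right : ∀ a : O, Per q (Esg a)
  norm_Esg : ∀ a b : O, ‖Esg a b‖ ≤ 1
  w_mul : ∀ b c : O, Adm b → Adm c → w (b * c) = w b * w c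
  w_one : w 1 = 1
  norm_w : ∀ b : O, Adm b → ‖w b‖ ≤ Real.sqrt (N b)
  tau_eq : ∀ n b : O, Sq n → Adm b → tau (n * b ^ 3) = g n * w b
  tau_zero : ∀ k : O, Adm k → (¬ ∃ n b : O, Sq n ∧ Adm b ∧ k = n * b ^ 3) → tau k = 0

open Classical in
/-- the Moebius sum `∑ μ(n) κ(n) χ_n(u) W(N n / D) (N n / D)^{it}` over squarefree admissible `n` -/
noncomputable def Asum (S : Sext) (κ : O → ℂ) (W : ℝ → ℂ) (D t : ℝ) (u : O) : ℂ :=
  ∑' n : O, if Sq n then mob n * κ n * S.chi n u * wt W t (N n / D) else 0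

open Classical in
/-- the completed theta sum `∑ τ(m) κ(m) χ_m(h) W(N m / X) (N m / X)^{it}` over admissible `m` -/
noncomputable def Tsum (S : Sext) (κ : O → ℂ) (W : ℝ → ℂ) (X t : ℝ) (h : O) : ℂ :=
  ∑' m : O, if Adm m then S.tau m * κ m * S.chi m h * wt W t (N m / X) else 0

/-- the theta input: mean square of the completed sums over all `h ≠ 0` -/
def TB (S : Sext) : Prop :=
  ∀ W : ℝ → ℂ, IsWt W → ∀ ε : ℝ, 0 < ε → ∃ (C : ℝ) (K : ℕ), ∀ κ : O → ℂ, Cls S.q κ →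
    ∀ t X Y : ℝ, 1 ≤ X → 1 ≤ Y →
      ∑ h ∈ Hn Y, ‖Tsum S κ W X t h‖ ^ 2 ≤
        C * (1 + |t|) ^ K * (X * Y) ^ ε * (X * (Y + Y ^ 2 / X))

/-- the Moebius mean square with exponent `β` in the range `H ≥ D^{1+θ}` -/
def MBexp (S : Sext) (θ β : ℝ) : Prop :=
  ∀ W : ℝ → ℂ, IsWt W → ∀ δ : ℝ, 0 < δ → ∃ (C : ℝ) (K : ℕ), ∀ κ : O → ℂ, Cls S.q κ →
    ∀ t D H : ℝ, 0 < D → 1 ≤ H → D ^ (1 + θ) ≤ H →
      ∑ u ∈ Hn H, ‖Asum S κ W D t u‖ ^ 2 ≤ C * (1 + |t|) ^ K * D ^ (1 + β) * H ^ (1 + δ)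

/-- the output of the block -/
def MB (S : Sext) : Prop :=
  ∀ θ : ℝ, 0 < θ → ∀ W : ℝ → ℂ, IsWt W → ∀ δ : ℝ, 0 < δ → ∃ (C : ℝ) (K : ℕ),
    ∀ κ : O → ℂ, Cls S.q κ → ∀ t D H : ℝ, 0 < D → 1 ≤ H → D ^ (1 + θ) ≤ H →
      ∑ u ∈ Hn H, ‖Asum S κ W D t u‖ ^ 2 ≤ C * (1 + |t|) ^ K * D * H ^ (1 + δ)

end Vale.Agent.P026Z.Poi
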