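import Vale.Agent.P026Z.Poi.Iface2

/-!
P026, block POI: the bound for the short terms.
-/

namespace Vale.Agent.P026Z.Poi

open Vale.Agent.P006 Vale.Agent.P006.V1 Vale.Agent.P006.HB Finset
open Vale.Agent.P006.PS (b0 b0_pos)
open scoped ComplexConjugate

theorem Cls.conj' {q : O} {κ : O → ℂ} (h : Cls q κ) : Cls q fun n => conj (κ n) :=
  ⟨h.1.conj, fun x => by rw [Complex.norm_conj]; exact h.2 x⟩

theorem one_add_abs_le (t τ : ℝ) : 1 + |-t + -τ| ≤ (1 + |t|) * (1 + |τ|) := by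
  have h1 := abs_add_le (-t) (-τ)
  rw [abs_neg, abs_neg] at h1
  nlinarith [abs_nonneg t, abs_nonneg τ]

theorem sum_Hn_mul_le {f : O → ℝ} (hf : ∀ h, 0 ≤ f h) {r : O} (hr : r ≠ 0) {y R : ℝ}
    (hy : 0 ≤ y) (hR : (N r : ℝ) ≤ R) : ∑ h ∈ Hn y, f (h * r) ≤ ∑ h ∈ Hn (y * R), f h := by
  classical
  rw [← sum_image (s := Hn y) (g := fun h => h * r) (f := f)
    (fun x _ y _ h => mul_right_cancel₀ hr h)]
  refine sum_le_sum_of_subset_of_nonneg ?_ fun h _ _ => hf h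
  intro x hx
  obtain ⟨h, hh, rfl⟩ := mem_image.1 hx
  rw [mem_Hn] at hh ⊢
  refine ⟨?_, mul_ne_zero hh.2 hr⟩
  rw [N_mul']
  exact mul_le_mul hh.1 hR (by positivity) hy

namespace Sext

variable (S : Sext)

/-- sum over the classes of the squares of the Gauss sum sums -/
noncomputable def Bcl (W : ℝ → ℂ) (X t : ℝ) (v : O) : ℝ :=
  ∑ j : Rs S.q, ‖S.Bs (ind S.q j) W X t v‖ ^ 2

theorem Bcl_nonneg (W : ℝ → ℂ) (X t : ℝ) (v : O) : 0 ≤ S.Bcl W X t v :=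
  sum_nonneg fun _ _ => by positivity

theorem Bcl_eq {W : ℝ → ℂ} {b : ℝ} (hb : ∀ x, W x ≠ 0 → x ≤ b)
    {X L : ℝ} (hX : 0 < X) (hL : b * X ≤ L) (t : ℝ) (v : O) :
    S.Bcl W X t v = cl S.q (SO L) fun n => S.g n * S.chi n v * wt W t (N n / X) := by
  unfold Bcl cl Bs
  refine sum_congr rfl fun j _ => ?_
  rw [S.Sm_eq _ hb hX hL]
  congr 2
  exact sum_congr rfl fun n _ => by ring

end Sext

/-- the weighted mean square of the Gauss sum sums along a progression -/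
theorem short_G (S : Sext) {θ β : ℝ} (hB : BB S θ β) {W : ℝ → ℂ} (hW : IsWt W) {ε : ℝ}
    (hε : 0 < ε) (hε1 : ε ≤ 1) : ∃ (C : ℝ) (K : ℕ), 0 ≤ C ∧ ∀ (r : O) (t X Y0 R Z3 D0 : ℝ),
      r ≠ 0 → (N r : ℝ) ≤ R → 1 ≤ Z3 → Z3 ^ 3 ≤ X → X ≤ D0 → 1 ≤ Y0 → D0 ^ (1 - θ) ≤ Y0 →
      ∀ F : Finset O, (∀ h ∈ F, h ≠ 0) →
      ∑ h ∈ F, om4 (N h / Y0) * S.Bcl W X t (h * r) ≤
        C * (1 + |t|) ^ K * ((D0 * (Y0 * R)) ^ ε * (X * (Y0 * R) + Z3 ^ 3 * (Y0 * R) ^ 2 +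
          Y0 * R * X * (D0 / Z3 ^ 3) ^ (θ + β))) := by
  obtain ⟨C, K, hC, h1⟩ := hB W hW ε hε
  refine ⟨17 * (N S.q * C), K, by positivity, ?_⟩
  intro r t X Y0 R Z3 D0 hr hR hZ3 hX hXD hY0 hDY F hF
  have hR1 : 1 ≤ R := (one_le_N hr).trans hR
  have hZ0 : 0 < Z3 ^ 3 := by positivity
  have hX0 : 0 < X := hZ0.trans_le hX
  have hD0 : 0 < D0 := hX0.trans_le hXD
  have hY00 : 0 < Y0 := by linarith
  have key := om4_sum_le (f := fun h => S.Bcl W X t (h * r)) (fun h => S.Bcl_nonneg _ _ _ _) hY00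
    (G := N S.q * C * (1 + |t|) ^ K * ((D0 * (Y0 * R)) ^ ε * (X * (Y0 * R) +
      Z3 ^ 3 * (Y0 * R) ^ 2 + Y0 * R * X * (D0 / Z3 ^ 3) ^ (θ + β)))) (fun y hy => ?_) F hF
  · refine key.trans (le_of_eq ?_); ring
  have hy0 : 0 < y := by linarith
  refine (sum_Hn_mul_le (f := S.Bcl W X t) (fun h => S.Bcl_nonneg _ _ _ _) hr hy0.le hR).trans ?_
  obtain ⟨u, hu1, hu⟩ : ∃ u, 1 ≤ u ∧ y = u * Y0 := ⟨y / Y0, (one_le_div hY00).2 hy, by field_simp⟩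
  have hyR : Y0 ≤ y * R := hy.trans (le_mul_of_one_le_right hy0.le hR1)
  have h2 : ∑ h ∈ Hn (y * R), S.Bcl W X t h ≤ ∑ _j : Rs S.q, C * (1 + |t|) ^ K *
      (D0 * (y * R)) ^ ε *
        (X * (y * R) + Z3 ^ 3 * (y * R) ^ 2 + y * R * X * (D0 / Z3 ^ 3) ^ (θ + β)) := by
    unfold Sext.Bcl
    rw [sum_comm]
    exact sum_le_sum fun j _ =>
      h1 _ (cls_ind S.q j) t X (y * R) Z3 D0 hZ3 hX hXD (hY0.trans hyR) (hDY.trans hyR)
  refine h2.trans ?_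
  rw [sum_const, card_univ, fcard_Rs, nsmul_eq_mul]
  have e1 : y / Y0 = u := by rw [hu]; field_simp
  have h3 : (D0 * (y * R)) ^ ε ≤ (D0 * (Y0 * R)) ^ ε * u := by
    rw [hu, show D0 * (u * Y0 * R) = D0 * (Y0 * R) * u by ring,
      Real.mul_rpow (by positivity) (by linarith)]
    gcongr
    calc u ^ ε ≤ u ^ (1 : ℝ) := Real.rpow_le_rpow_of_exponent_le hu1 hε1
      _ = u := Real.rpow_one u
  have hu2 : u ≤ u ^ 2 := by nlinarith
  have h4 : X * (y * R) + Z3 ^ 3 * (y * R) ^ 2 + y * R * X * (D0 / Z3 ^ 3) ^ (θ + β) ≤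
      (X * (Y0 * R) + Z3 ^ 3 * (Y0 * R) ^ 2 + Y0 * R * X * (D0 / Z3 ^ 3) ^ (θ + β)) * u ^ 2 := by
    calc _ = X * (Y0 * R) * u + Z3 ^ 3 * (Y0 * R) ^ 2 * u ^ 2 +
          Y0 * R * X * (D0 / Z3 ^ 3) ^ (θ + β) * u := by rw [hu]; ring
      _ ≤ X * (Y0 * R) * u ^ 2 + Z3 ^ 3 * (Y0 * R) ^ 2 * u ^ 2 +
          Y0 * R * X * (D0 / Z3 ^ 3) ^ (θ + β) * u ^ 2 := by gcongr
      _ = _ := by ring
  rw [e1]
  calc _ ≤ (N S.q : ℝ) * (C * (1 + |t|) ^ K * ((D0 * (Y0 * R)) ^ ε * u) *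
        ((X * (Y0 * R) + Z3 ^ 3 * (Y0 * R) ^ 2 + Y0 * R * X * (D0 / Z3 ^ 3) ^ (θ + β)) * u ^ 2)) := by
        gcongr
    _ = _ := by ring

namespace Sext

variable (S : Sext)

/-- the term of frequency `h` of a short term -/
noncomputable def Gt (L A : ℝ) (a : O → ℂ) (d h : O) : ℂ :=
  ∑ n1 ∈ SO L, ∑ n2 ∈ SO L, conj (a (d * n1)) * a (d * n2) *
    (((A / (Real.sqrt (N (d * n1)) * Real.sqrt (N (d * n2))) : ℝ) : ℂ) *
      (S.cst (d * n1) (d * n2) * ((conj (S.chi (d * n2) h) * S.chi (d * n1) h) *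
        (gw (N (d * n1) * N (d * n2) / A) h : ℂ))))

theorem ShortT_eq {L A : ℝ} (hA : 0 < A) (a : O → ℂ) {d : O} (hd : Adm d) :
    S.ShortT L A a d = ∑' h : O, S.Gt L A a d h := by
  have hs : ∀ n1 ∈ SO L, ∀ n2 ∈ SO L, Summable fun h : O => conj (a (d * n1)) * a (d * n2) *
    (((A / (Real.sqrt (N (d * n1)) * Real.sqrt (N (d * n2))) : ℝ) : ℂ) *
      (S.cst (d * n1) (d * n2) * ((conj (S.chi (d * n2) h) * S.chi (d * n1) h) *
        (gw (N (d * n1) * N (d * n2) / A) h : ℂ)))) := by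
    intro n1 h1 n2 h2
    have a1 := hd.mul (mem_SO.1 h1).2.1
    have a2 := hd.mul (mem_SO.1 h2).2.1
    have := N_pos' a1.ne_zero
    have := N_pos' a2.ne_zero
    exact (((S.summable_psum (by positivity) a2 a1).mul_left _).mul_left _).mul_left _
  unfold Gt ShortT
  rw [Summable.tsum_finsetSum fun n1 h1 => summable_sum (hs n1 h1)]
  refine sum_congr rfl fun n1 h1 => ?_
  rw [Summable.tsum_finsetSum (hs n1 h1)]
  refine sum_congr rfl fun n2 _ => ?_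
  rw [tsum_mul_left, tsum_mul_left, tsum_mul_left, Fd, psum]

theorem norm_cst_le {a b : O} (ha : Sq a) (hb : Sq b) : ‖S.cst a b‖ ≤ 1 := by
  rw [cst, norm_mul, norm_mul, norm_mul, norm_mul, norm_mob, norm_mob, Complex.norm_conj,
    S.norm_g a ha, S.norm_g b hb]
  simpa using S.norm_Esg a b

theorem norm_Gt_zero_le {L A : ℝ} (hA : 0 < A) {a : O → ℂ} {M : ℝ} (hM : ∀ n, Adm n → ‖a n‖ ≤ M)
    {d : O} (hd : Sq d) : ‖S.Gt L A a d 0‖ ≤ M ^ 2 * A := by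
  have hM0 : 0 ≤ M := (norm_nonneg _).trans (hM 1 adm_one)
  have h1 : ∀ m ∈ SO L, m ≠ 1 → S.chi (d * m) 0 = 0 := fun m hm h => by
    rw [S.chi_mul_left _ _ _ hd.1 (mem_SO.1 hm).2.1, S.chi_zero (mem_SO.1 hm).2.1 h, mul_zero]
  by_cases h : (1 : O) ∈ SO L
  · rw [Gt, sum_eq_single_of_mem 1 h, sum_eq_single_of_mem 1 h]
    · have pd := one_le_N hd.ne_zero
      simp only [mul_one, gw_zero, Complex.ofReal_one]
      rw [Real.mul_self_sqrt (by linarith), norm_mul, norm_mul, norm_mul, norm_mul, norm_mul,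
        Complex.norm_conj, Complex.norm_conj, Complex.norm_real,
        Real.norm_of_nonneg (by positivity)]
      calc _ ≤ M * M * (A * (1 * (1 * 1))) := by
            gcongr
            exacts [hM _ hd.1, hM _ hd.1, div_le_self hA.le pd, S.norm_cst_le hd hd,
              S.norm_chi_le hd.1 _, S.norm_chi_le hd.1 _]
        _ = _ := by ring
    · intro m hm hm1
      simp [h1 m hm hm1]
    · intro m hm hm1
      exact sum_eq_zero fun m2 _ => by simp [h1 m hm hm1]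
  · rw [Gt, sum_eq_zero]
    · rw [norm_zero]; positivity
    · intro m hm
      have : m ≠ 1 := fun h2 => h (h2 ▸ hm)
      exact sum_eq_zero fun m2 _ => by simp [h1 m hm this]

/-- the coefficients of a short term -/
noncomputable def zs (a : O → ℂ) (d : O) (X : ℝ) (h n : O) : ℂ :=
  a (d * n) * mob (d * n) * conj (S.g (d * n)) * conj (S.chi (d * n) h) *
    (((N n / X) ^ (-(1 / 2) : ℝ) : ℝ) : ℂ)

theorem Gt_eq {L A X : ℝ} (hA : 0 < A) (hX : 0 < X) (a : O → ℂ) {d : O} (hd : d ≠ 0) (h : O) :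
    S.Gt L A a d h = ((A / (N d * X) : ℝ) : ℂ) * ∑ n1 ∈ SO L, ∑ n2 ∈ SO L,
      S.Esg (d * n1) (d * n2) * (conj (S.zs a d X h n1) * S.zs a d X h n2) *
        ((Real.exp (-(b0 * (N h * A / (N d * X) ^ 2) / (N n1 / X * (N n2 / X)))) : ℝ) : ℂ) := by
  rw [Gt, mul_sum]
  refine sum_congr rfl fun n1 h1 => ?_
  rw [mul_sum]
  refine sum_congr rfl fun n2 h2 => ?_
  have pd := N_pos' hd
  have p1 := N_pos' (mem_SO.1 h1).2.ne_zero
  have p2 := N_pos' (mem_SO.1 h2).2.ne_zero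
  have e1 : gw (N (d * n1) * N (d * n2) / A) h =
      Real.exp (-(b0 * (N h * A / (N d * X) ^ 2) / (N n1 / X * (N n2 / X)))) := by
    rw [gw, N_mul', N_mul']
    congr 2
    field_simp
  have r : ∀ n : ℝ, 0 < n → (n / X) ^ (-(1 / 2) : ℝ) = Real.sqrt X / Real.sqrt n := by
    intro n hn
    rw [Real.rpow_neg (by positivity), ← Real.sqrt_eq_rpow, Real.sqrt_div hn.le, inv_div]
  have e2 : A / (Real.sqrt (N (d * n1)) * Real.sqrt (N (d * n2))) =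
      A / (N d * X) * ((N n1 / X) ^ (-(1 / 2) : ℝ) * (N n2 / X) ^ (-(1 / 2) : ℝ)) := by
    rw [r _ p1, r _ p2, N_mul', N_mul', Real.sqrt_mul pd.le, Real.sqrt_mul pd.le]
    have t0 := Real.sq_sqrt pd.le
    have t1 := Real.sq_sqrt hX.le
    have u0 := Real.sqrt_pos.2 pd
    have u1 := Real.sqrt_pos.2 p1
    have u2 := Real.sqrt_pos.2 p2
    have u3 := Real.sqrt_pos.2 hX
    generalize Real.sqrt (N d) = x at *
    generalize Real.sqrt X = y at *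
    rw [← t0, ← t1]
    field_simp
  rw [e1, e2, cst, zs, zs]
  simp only [map_mul, Complex.conj_conj, Complex.conj_ofReal, conj_mob, Complex.ofReal_mul]
  ring

/-- the class sums of a short term are Gauss sum sums -/
theorem cl_short_le {κ : O → ℂ} (hκ : Cls S.q κ) {W : ℝ → ℂ} {b : ℝ} (hb : ∀ x, W x ≠ 0 → x ≤ b)
    (hb0 : 0 ≤ b) {D0 L : ℝ} (hD : 0 < D0) (hL : b * D0 ≤ L) (t : ℝ) {g d : O} (e h : O)
    (hd : Sq d) (hgd : Sq (g * d)) (σ τ : ℝ) :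
    cl S.q (SO L) (fun n => S.zs (fun m => aco κ W D0 t (g * m) * S.chi m e) d (D0 / N (g * d)) h n *
      ((N n / (D0 / N (g * d)) : ℝ) : ℂ) ^ ((σ : ℂ) + τ * Complex.I)) ≤
      S.Bcl (fun y => conj (W y) * ((y ^ (-(1 / 2) : ℝ) : ℝ) : ℂ) * ((y ^ σ : ℝ) : ℂ))
        (D0 / N (g * d)) (-t + -τ) (h * (d ^ 4 * g ^ 6 * e ^ 5)) := by
  have hX : 0 < D0 / N (g * d) := div_pos hD (N_pos' hgd.ne_zero)
  rw [S.Bcl_eq (b := b) (fun x hx => hb x fun h0 => hx (by simp [h0])) hX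
    (div_N_le hb0 hD hL hgd.ne_zero), ← cl_conj]
  generalize hXd : D0 / N (g * d) = X at hX ⊢
  have h2 : ‖mob (g * d) * conj (S.chi d e) * mob d * S.g d * S.chi d h‖ ≤ 1 := by
    rw [norm_mul, norm_mul, norm_mul, norm_mul, norm_mob, norm_mob, Complex.norm_conj,
      S.norm_g d hd, one_mul, mul_one, mul_one]
    exact mul_le_one₀ (S.norm_chi_le hd.1 _) (norm_nonneg _) (S.norm_chi_le hd.1 _)
  refine le_trans (le_of_eq (cl_congr fun n hn => ?_))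
    ((cl_const_mul_le _ h2 _).trans (cl_cls_mul_le (hκ.comp_mul (g * d)).conj' _ _))
  have sn := (mem_SO.1 hn).2
  have px : 0 < N n / X := div_pos (N_pos' sn.ne_zero) hX
  have e1 : conj (((N n / X : ℝ) : ℂ) ^ ((σ : ℂ) + τ * Complex.I)) =
      ((N n / X : ℝ) : ℂ) ^ ((σ : ℂ) + (-τ : ℝ) * Complex.I) := by
    rw [conj_cpow_pos px]
    congr 1
    simp
  have e2 := wt_mul_cpow (fun y => conj (W y) * ((y ^ (-(1 / 2) : ℝ) : ℝ) : ℂ)) px (-t) σ (-τ)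
  have e3 : wt (fun y => conj (W y) * ((y ^ (-(1 / 2) : ℝ) : ℝ) : ℂ)) (-t) (N n / X) =
      conj (wt W t (N n / X)) * (((N n / X) ^ (-(1 / 2) : ℝ) : ℝ) : ℂ) := by
    rw [conj_wt W px, wt, wt]; ring
  rw [← e2, e3, map_mul, e1, zs, ← mul_assoc g d n, aco_mul κ W t hgd sn, hXd]
  by_cases hc : IsCoprime d n
  · have e4 : S.chi n (h * (d ^ 4 * g ^ 6 * e ^ 5)) =
        S.chi n h * (S.chi n (d ^ 4) * cop n g * conj (S.chi n e)) := by
      rw [S.chi_mul _ _ _ sn.1, S.chi_mul _ _ _ sn.1, S.chi_mul _ _ _ sn.1, S.chi_pow_six sn.1,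
        S.conj_eq n e sn.1, S.chi_pow sn.1 e]
    have e5 : cop n d = 1 := by rw [cop, if_pos hc]
    have e6 := mob_mul_self n
    rw [e4, S.g_mul d n hd sn hc, S.chi_mul_left _ _ _ hd.1 sn.1, S.chi_mul_left _ _ _ hd.1 sn.1,
      mob_mul' hd.ne_zero sn.ne_zero, cop_mul_right, e5]
    simp only [map_mul, Complex.conj_conj, Complex.conj_ofReal, conj_mob, conj_cop, mul_one]
    linear_combination (mob (g * d) * conj (κ (g * d * n)) * cop n g * conj (wt W t (N n / X)) *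
      (conj (S.chi d e) * conj (S.chi n e)) * mob d * (S.g d * S.g n * S.chi n (d ^ 4)) *
      (S.chi d h * S.chi n h) * (((N n / X) ^ (-(1 / 2) : ℝ) : ℝ) : ℂ) *
      ((N n / X : ℝ) : ℂ) ^ ((σ : ℂ) + (-τ : ℝ) * Complex.I)) * e6
  · have e5 : cop n d = 0 := by rw [cop, if_neg hc]
    have e4 : S.chi n (h * (d ^ 4 * g ^ 6 * e ^ 5)) = 0 := by
      rw [← S.cop_mul_chi sn.1 (k := d) ⟨h * (d ^ 3 * g ^ 6 * e ^ 5), by ring⟩, e5, zero_mul]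
    rw [e4, cop_mul_right, e5]
    simp

end Sext

/-- the nonzero frequencies of a short term -/
theorem short_sum (S : Sext) {θ β : ℝ} (hB : BB S θ β) {W : ℝ → ℂ} (hW : IsWt W) {b : ℝ}
    (hb0 : 0 ≤ b) (hb : ∀ x, W x ≠ 0 → x ≤ b) {ε : ℝ} (hε : 0 < ε) (hε1 : ε ≤ 1) :
    ∃ (C : ℝ) (K : ℕ), 0 ≤ C ∧ ∀ κ : O → ℂ, Cls S.q κ → ∀ (t D0 A Y0 R Z3 : ℝ) (g e d : O),
      0 < A → Sq d → Sq (g * d) → e ≠ 0 → (N (d ^ 4 * g ^ 6 * e ^ 5) : ℝ) ≤ R → 1 ≤ Z3 →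
      Z3 ^ 3 ≤ D0 / N (g * d) → 1 ≤ Y0 → D0 ^ (1 - θ) ≤ Y0 →
      (N d * (D0 / N (g * d))) ^ 2 ≤ A * Y0 → ∀ F : Finset O, (∀ h ∈ F, h ≠ 0) →
      ∑ h ∈ F, ‖S.Gt (b * D0) A (fun m => aco κ W D0 t (g * m) * S.chi m e) d h‖ ≤
        C * (1 + |t|) ^ K * (Y0 ^ ε * (D0 * (Y0 * R)) ^ ε) * (A / (N d * (D0 / N (g * d))) *
          (D0 / N (g * d) * (Y0 * R) + Z3 ^ 3 * (Y0 * R) ^ 2 +
            Y0 * R * (D0 / N (g * d)) * (D0 / Z3 ^ 3) ^ (θ + β))) := by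
  obtain ⟨C1, K1, hC1, h1⟩ := short_G S hB ((hW.conj.mul_rpow (-(1 / 2))).mul_rpow ε) hε hε1
  obtain ⟨C2, K2, hC2, h2⟩ := short_G S hB ((hW.conj.mul_rpow (-(1 / 2))).mul_rpow 4) hε hε1
  obtain ⟨C0, hC0, h0⟩ := sepS2 hε (K1 + K2)
  refine ⟨C0 * N S.q * (C1 + C2), K1 + K2, by positivity, ?_⟩
  intro κ hκ t D0 A Y0 R Z3 g e d hA sd sgd he hR hZ3 hX hY0 hDY hAY F hF
  have pgd : (1 : ℝ) ≤ N (g * d) := one_le_N sgd.ne_zero
  have pd : (0 : ℝ) < N d := N_pos' sd.ne_zero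
  have hX0 : 0 < D0 / N (g * d) := lt_of_lt_of_le (by positivity) hX
  have hD0 : 0 < D0 := by
    have := mul_pos hX0 (show (0 : ℝ) < N (g * d) by linarith)
    rwa [div_mul_cancel₀ _ (by linarith)] at this
  have hXD : D0 / N (g * d) ≤ D0 := div_le_self hD0.le pgd
  have hr : d ^ 4 * g ^ 6 * e ^ 5 ≠ 0 :=
    mul_ne_zero (mul_ne_zero (pow_ne_zero _ sd.ne_zero)
      (pow_ne_zero _ (left_ne_zero_of_mul sgd.ne_zero))) (pow_ne_zero _ he)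
  have hR1 : 1 ≤ R := (one_le_N hr).trans hR
  have hcl := fun h σ τ => S.cl_short_le hκ hb hb0 hD0 le_rfl t e h sd sgd σ τ
  have hGt := fun h => S.Gt_eq (L := b * D0) hA hX0
    (fun m => aco κ W D0 t (g * m) * S.chi m e) sd.ne_zero h
  have h1' := fun τ => h1 _ (-t + -τ) _ Y0 R Z3 D0 hr hR hZ3 hX hXD hY0 hDY F hF
  have h2' := fun τ => h2 _ (-t + -τ) _ Y0 R Z3 D0 hr hR hZ3 hX hXD hY0 hDY F hF
  generalize D0 / N (g * d) = X at *
  have hc : 0 < A / (N d * X) := by positivity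
  have hQ : 0 ≤ (D0 * (Y0 * R)) ^ ε * (X * (Y0 * R) + Z3 ^ 3 * (Y0 * R) ^ 2 +
      Y0 * R * X * (D0 / Z3 ^ 3) ^ (θ + β)) := by positivity
  have key := h0 S.q F (SO (b * D0)) (fun _ => A / (N d * X)) (fun h => N h / Y0)
    (fun h => b0 * (N h * A / (N d * X) ^ 2)) (fun _ n1 n2 => S.Esg (d * n1) (d * n2))
    (fun h => S.zs (fun m => aco κ W D0 t (g * m) * S.chi m e) d X h) (fun _ n => N n / X)
    (A / (N d * X) * ((C1 + C2) * (1 + |t|) ^ (K1 + K2) * ((D0 * (Y0 * R)) ^ ε *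
      (X * (Y0 * R) + Z3 ^ 3 * (Y0 * R) ^ 2 + Y0 * R * X * (D0 / Z3 ^ 3) ^ (θ + β))))) Y0 hY0
    (fun _ _ => hc.le) (fun h hh => ?_) (fun h hh => ?_)
    (fun _ _ n hn => div_pos (N_pos' (mem_SO.1 hn).2.ne_zero) hX0)
    (fun _ _ => S.bi.comp_mul d d) (fun σ hσ τ => ?_)
  · refine le_trans (le_of_eq (sum_congr rfl fun h _ => ?_)) (key.trans (le_of_eq (by ring)))
    rw [hGt, norm_mul, Complex.norm_real, Real.norm_of_nonneg hc.le]
  · rw [inv_eq_one_div]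
    gcongr
    exact one_le_N (hF h hh)
  · have : (N h : ℝ) / Y0 ≤ N h * A / (N d * X) ^ 2 := by
      rw [div_le_div_iff₀ (by linarith) (by positivity), mul_assoc]
      gcongr
    exact this.trans (le_mul_of_one_le_left (by positivity) one_le_b0)
  · rw [← mul_sum, mul_assoc]
    refine mul_le_mul_of_nonneg_left ?_ hc.le
    have hT : ∀ K, K ≤ K1 + K2 →
        (1 + |-t + -τ|) ^ K ≤ (1 + |t|) ^ (K1 + K2) * (1 + |τ|) ^ (K1 + K2) := by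
      intro K hK
      rw [← mul_pow]
      exact (pow_le_pow_right₀ (by linarith [abs_nonneg (-t + -τ)]) hK).trans
        (pow_le_pow_left₀ (by positivity) (one_add_abs_le t τ) _)
    refine (sum_le_sum fun h _ =>
      mul_le_mul_of_nonneg_left (hcl h σ τ) (om4_nonneg _)).trans ?_
    generalize (D0 * (Y0 * R)) ^ ε * (X * (Y0 * R) + Z3 ^ 3 * (Y0 * R) ^ 2 +
      Y0 * R * X * (D0 / Z3 ^ 3) ^ (θ + β)) = Q at *
    rcases hσ with rfl | rfl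
    · refine (h1' τ).trans ?_
      calc _ ≤ (C1 + C2) * ((1 + |t|) ^ (K1 + K2) * (1 + |τ|) ^ (K1 + K2)) * Q := by
            gcongr
            exacts [le_add_of_nonneg_right hC2, hT _ (Nat.le_add_right _ _)]
        _ = _ := by ring
    · refine (h2' τ).trans ?_
      calc _ ≤ (C1 + C2) * ((1 + |t|) ^ (K1 + K2) * (1 + |τ|) ^ (K1 + K2)) * Q := by
            gcongr
            exacts [le_add_of_nonneg_left hC1, hT _ (Nat.le_add_left _ _)]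
        _ = _ := by ring

theorem short_num {H D0 Z Z3 Y0 P g e d : ℝ} (hH : 0 < H) (hD : 0 < D0) (hZ : 0 < Z) (hZ3 : 0 < Z3)
    (hY : 0 < Y0) (hP : 0 ≤ P) (hg : 0 < g) (hgZ : g ≤ Z) (he : 1 ≤ e) (hd : 1 ≤ d) :
    H / e / (d * (D0 / (g * d))) * (D0 / (g * d) * (Y0 * Z ^ 15) + Z3 ^ 3 * (Y0 * Z ^ 15) ^ 2 +
      Y0 * Z ^ 15 * (D0 / (g * d)) * P) ≤
      H * (Z ^ 15 * Y0 + Z ^ 31 * Z3 ^ 3 * Y0 ^ 2 / D0 + Z ^ 15 * Y0 * P) := by
  have h1 : (e * d)⁻¹ ≤ 1 := inv_le_one_of_one_le₀ (one_le_mul_of_one_le_of_one_le he hd)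
  have h2 : g / e ≤ Z := (div_le_self hg.le he).trans hgZ
  have he0 : 0 < e := by linarith
  have hd0 : 0 < d := by linarith
  calc _ = H * ((e * d)⁻¹ * (Z ^ 15 * Y0) + g / e * (Z ^ 30 * Z3 ^ 3 * Y0 ^ 2 / D0) +
        (e * d)⁻¹ * (Z ^ 15 * Y0 * P)) := by field_simp
    _ ≤ H * (1 * (Z ^ 15 * Y0) + Z * (Z ^ 30 * Z3 ^ 3 * Y0 ^ 2 / D0) + 1 * (Z ^ 15 * Y0 * P)) := by
        gcongr
    _ = _ := by ring

/-- **the short terms** -/
theorem shortB_of_bb (S : Sext) {θ β : ℝ} (h0 : 0 ≤ θ) (h1 : θ ≤ 1) (hB : BB S θ β) :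
    ShortB S θ β := by
  intro W hW b M hb1 hb hM δ hδ
  have hM0 : 0 ≤ M := (norm_nonneg _).trans (hM 0)
  obtain ⟨ε, hε0, hε1, hε2⟩ : ∃ ε : ℝ, 0 < ε ∧ ε ≤ 1 ∧ 18 * ε ≤ δ :=
    ⟨min (δ / 18) 1, lt_min (by positivity) one_pos, min_le_right _ _,
      by have := min_le_left (δ / 18) 1; linarith⟩
  obtain ⟨C, K, hC, hS⟩ := short_sum S hB hW (by linarith) hb hε0 hε1
  refine ⟨M ^ 2 + C, K, by positivity, ?_⟩
  intro κ hκ t D0 H Z Z3 hD hH hZ hZ3 hZD g hg hgZ e he d hd hdZ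
  have hD0 : 0 < D0 := by linarith
  have hDH : D0 ≤ H := by
    refine le_trans ?_ hH
    calc D0 = D0 ^ (1 : ℝ) := (Real.rpow_one D0).symm
      _ ≤ D0 ^ (1 + θ) := Real.rpow_le_rpow_of_exponent_le hD (by linarith)
  have hH1 : 1 ≤ H := hD.trans hDH
  have hH0 : 0 < H := by linarith
  have hY1 : 1 ≤ D0 ^ (1 - θ) := Real.one_le_rpow hD (by linarith)
  have hYD : D0 ^ (1 - θ) ≤ D0 := by
    calc D0 ^ (1 - θ) ≤ D0 ^ (1 : ℝ) := Real.rpow_le_rpow_of_exponent_le hD (by linarith)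
      _ = D0 := Real.rpow_one D0
  have hHY : D0 ^ 2 ≤ H * D0 ^ (1 - θ) := by
    calc D0 ^ 2 = D0 ^ (1 + θ) * D0 ^ (1 - θ) := by
          rw [← Real.rpow_add hD0, ← Real.rpow_natCast]; norm_num
      _ ≤ _ := by gcongr
  have hP : 0 ≤ (D0 / Z3 ^ 3) ^ (θ + β) := by positivity
  have sg := (mem_SO.1 hg).2
  have sd := (mem_SO.1 hd).2
  have se := sq_of_mem_D sg he
  have pg1 := one_le_N sg.ne_zero
  have pe1 := one_le_N se.ne_zero
  have pd1 := one_le_N sd.ne_zero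
  have heg : (N e : ℝ) ≤ N g := N_le_of_dvd sg.ne_zero ((mem_D sg.ne_zero).1 he).2
  have hT1 : 1 ≤ (1 + |t|) ^ K := one_le_pow₀ (by linarith [abs_nonneg t])
  have hZ15 : 1 ≤ Z ^ 15 := one_le_pow₀ hZ
  generalize hY : D0 ^ (1 - θ) = Y0 at *
  generalize hP' : (D0 / Z3 ^ 3) ^ (θ + β) = P at *
  have hQ1 : 1 ≤ Z ^ 15 * Y0 + Z ^ 31 * Z3 ^ 3 * Y0 ^ 2 / D0 + Z ^ 15 * Y0 * P := by
    have a1 := one_le_mul_of_one_le_of_one_le hZ15 hY1
    have a2 : 0 ≤ Z ^ 31 * Z3 ^ 3 * Y0 ^ 2 / D0 := by positivity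
    have a3 : 0 ≤ Z ^ 15 * Y0 * P := by positivity
    linarith
  by_cases sgd : Sq (g * d)
  swap
  · rw [Sext.ShortT, sum_eq_zero, norm_zero]
    · positivity
    · intro n1 _
      refine sum_eq_zero fun n2 _ => ?_
      rw [← mul_assoc g d n2, aco_mul_of_not κ W D0 t (sg.prim.mul sd.prim) sgd]
      simp
  have hA : 0 < H / N e := by positivity
  have hR : (N (d ^ 4 * g ^ 6 * e ^ 5) : ℝ) ≤ Z ^ 15 := by
    rw [N_mul', N_mul', N_pow, N_pow, N_pow]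
    push_cast
    calc _ ≤ Z ^ 4 * Z ^ 6 * Z ^ 5 := by gcongr; exact heg.trans hgZ
      _ = _ := by ring
  have hX : Z3 ^ 3 ≤ D0 / N (g * d) := by
    rw [N_mul', le_div_iff₀ (by positivity)]
    refine le_trans ?_ hZD
    rw [sq]
    gcongr
  have hAY : (N d * (D0 / N (g * d))) ^ 2 ≤ H / N e * Y0 := by
    have e1 : (N d * (D0 / N (g * d)) : ℝ) = D0 / N g := by rw [N_mul']; field_simp
    rw [e1, div_pow, div_mul_eq_mul_div]
    gcongr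
    nlinarith
  have key := norm_tsum_le_split
    (hS κ hκ t D0 (H / N e) Y0 (Z ^ 15) Z3 g e d hA sd sgd se.ne_zero hR hZ3 hX hY1 hY.le hAY)
  rw [S.ShortT_eq hA _ sd.1]
  refine key.trans ?_
  have c0 : ‖S.Gt (b * D0) (H / N e) (fun m => aco κ W D0 t (g * m) * S.chi m e) d 0‖ ≤
      M ^ 2 * (H / N e) := by
    refine S.norm_Gt_zero_le hA (fun n hn => ?_) sd
    rw [norm_mul]
    calc _ ≤ M * 1 := by
          gcongr
          exacts [norm_aco_le hκ hM0 hM hD0 t _, S.norm_chi_le hn _]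
      _ = M := mul_one M
  have hHδ : H ≤ H ^ (1 + δ) := by
    calc H = H ^ (1 : ℝ) := (Real.rpow_one H).symm
      _ ≤ _ := Real.rpow_le_rpow_of_exponent_le hH1 (by linarith)
  have c1 : M ^ 2 * (H / N e) ≤ M ^ 2 * ((1 + |t|) ^ K * H ^ (1 + δ) *
      (Z ^ 15 * Y0 + Z ^ 31 * Z3 ^ 3 * Y0 ^ 2 / D0 + Z ^ 15 * Y0 * P)) := by
    gcongr
    calc H / N e ≤ 1 * H * 1 := by rw [one_mul, mul_one]; exact div_le_self hH0.le pe1
      _ ≤ _ := by gcongr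
  have hZH : Z ≤ H := by
    have a1 : 1 ≤ Z3 ^ 3 := one_le_pow₀ hZ3
    have a2 : Z ≤ Z3 ^ 3 * Z ^ 2 := by nlinarith
    linarith
  have c2 : Y0 ^ ε * (D0 * (Y0 * Z ^ 15)) ^ ε ≤ H ^ δ := by
    rw [← Real.mul_rpow (by positivity) (by positivity)]
    calc _ ≤ (H * (H * (H * H ^ 15))) ^ ε := by gcongr <;> linarith
      _ = H ^ (18 * ε) := by
          rw [show H * (H * (H * H ^ 15)) = H ^ 18 by ring, ← Real.rpow_natCast,
            ← Real.rpow_mul hH0.le]; norm_num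
      _ ≤ _ := Real.rpow_le_rpow_of_exponent_le hH1 hε2
  have c3 := short_num (Z3 := Z3) hH0 hD0 (by linarith) (by linarith) (by linarith : 0 < Y0) hP
    (by linarith : (0 : ℝ) < N g) hgZ pe1 pd1
  rw [← N_mul', hP'] at *
  calc _ ≤ M ^ 2 * ((1 + |t|) ^ K * H ^ (1 + δ) *
        (Z ^ 15 * Y0 + Z ^ 31 * Z3 ^ 3 * Y0 ^ 2 / D0 + Z ^ 15 * Y0 * P)) +
        C * (1 + |t|) ^ K * H ^ δ *
          (H * (Z ^ 15 * Y0 + Z ^ 31 * Z3 ^ 3 * Y0 ^ 2 / D0 + Z ^ 15 * Y0 * P)) := by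
        refine add_le_add (c0.trans c1) ?_
        gcongr
    _ = _ := by rw [Real.rpow_add hH0, Real.rpow_one]; ring

end Vale.Agent.P026Z.Poi
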