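import Vale.Agent.P026Z.Poi.Main0
import Vale.Agent.P026Z.Poi.StepL
import Vale.Agent.P026Z.Poi.StepS

/-!
P026, block POI: the theta mean square implies the Moebius mean square.
-/

namespace Vale.Agent.P026Z.Poi

/-- **the Poisson block** -/
theorem MB_of_TB (S : Sext) (hT : TB S) : MB S :=
  MB_of_TB_of S (fun _ _ h0 hb hC => largeB_of_cop S h0 hb hC)
    (fun _ _ h0 hb hS => longB_of_ss S h0 hb hS) (fun _ _ h0 h1 _ hB => shortB_of_bb S h0 h1 hB) hT

end Vale.Agent.P026Z.Poi
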