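import Vale.Agent.P026Z.Poi.Defs

/-!
P026, block POI: admissible elements, finite ranges, gcd and Moebius bookkeeping for sums over
pairs, divisor bounds.
-/

namespace Vale.Agent.P026Z.Poi

open Vale.Agent.P006 Vale.Agent.P006.V1 Vale.Agent.P006.HB Finset
open scoped ComplexConjugate

/-! ### admissible elements -/

theorem Adm.prim {n : O} (h : Adm n) : Prim n := h.1

theorem Adm.ne_zero {n : O} (h : Adm n) : n ≠ 0 := h.prim.ne_zero

theorem Sq.prim {n : O} (h : Sq n) : Prim n := h.1.1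

theorem Sq.ne_zero {n : O} (h : Sq n) : n ≠ 0 := h.prim.ne_zero

theorem adm_one : Adm 1 := ⟨primary_one, isCoprime_one_left⟩

theorem sq_one : Sq 1 := ⟨adm_one, squarefree_one⟩

theorem Adm.mul {a b : O} (ha : Adm a) (hb : Adm b) : Adm (a * b) :=
  ⟨ha.1.mul hb.1, ha.2.mul_left hb.2⟩

theorem Adm.pow {a : O} (ha : Adm a) (k : ℕ) : Adm (a ^ k) := ⟨ha.1.pow k, ha.2.pow_left⟩

theorem Adm.of_dvd {n d : O} (h : Adm n) (hd : Prim d) (hdn : d ∣ n) : Adm d :=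
  ⟨hd, h.2.of_isCoprime_of_dvd_left hdn⟩

theorem Adm.of_mul_left {a b : O} (h : Adm (a * b)) (ha : Prim a) : Adm b :=
  h.of_dvd (ha.of_mul_left h.prim) (dvd_mul_left _ _)

theorem Sq.of_dvd {n d : O} (h : Sq n) (hd : Prim d) (hdn : d ∣ n) : Sq d :=
  ⟨h.1.of_dvd hd hdn, h.2.squarefree_of_dvd hdn⟩

theorem Sq.of_mul_left {a b : O} (h : Sq (a * b)) (ha : Prim a) : Sq b :=
  h.of_dvd (ha.of_mul_left h.prim) (dvd_mul_left _ _)

theorem Sq.left {a b : O} (h : Sq (a * b)) (ha : Prim a) : Sq a :=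
  h.of_dvd ha (dvd_mul_right _ _)

theorem Sq.coprime {a b : O} (h : Sq (a * b)) : IsCoprime a b := by
  have h1 := (squarefree_mul_iff.1 h.2).1
  exact isRelPrime_iff_isCoprime.1 h1

theorem Sq.mul {a b : O} (ha : Sq a) (hb : Sq b) (hab : IsCoprime a b) : Sq (a * b) :=
  ⟨ha.1.mul hb.1, squarefree_mul_iff.2 ⟨hab.isRelPrime, ha.2, hb.2⟩⟩

theorem sq_mul_iff {a b : O} (ha : Sq a) (hb : Sq b) : Sq (a * b) ↔ IsCoprime a b :=
  ⟨fun h => h.coprime, fun h => ha.mul hb h⟩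

theorem one_le_N {n : O} (h : n ≠ 0) : (1 : ℝ) ≤ N n := by exact_mod_cast N_pos h

theorem N_pos' {n : O} (h : n ≠ 0) : (0 : ℝ) < N n := by exact_mod_cast N_pos h

theorem N_mul' (a b : O) : (N (a * b) : ℝ) = N a * N b := by rw [N_mul]; push_cast; ring

theorem N_le_of_dvd {d n : O} (hn : n ≠ 0) (h : d ∣ n) : (N d : ℝ) ≤ N n := by
  exact_mod_cast Nat.le_of_dvd (N_pos hn) (N_dvd_N h)

/-! ### the Moebius sign -/

theorem mob_mul' {a b : O} (ha : a ≠ 0) (hb : b ≠ 0) : mob (a * b) = mob a * mob b := by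
  have h1 := UniqueFactorizationMonoid.factors_mul ha hb
  have h2 := Multiset.card_eq_card_of_rel h1
  rw [mob, h2, Multiset.card_add, pow_add, mob, mob]

theorem mob_mul_self (a : O) : mob a * mob a = 1 := by
  rw [mob, ← mul_pow]; simp

theorem conj_mob (a : O) : conj (mob a) = mob a := by
  rw [mob, map_pow]; simp

/-! ### finite ranges -/

open Classical in
/-- squarefree admissible elements of norm at most `L` -/
noncomputable def SO (L : ℝ) : Finset O := (Nle L).filter Sq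

open Classical in
/-- admissible elements of norm at most `L` -/
noncomputable def AO (L : ℝ) : Finset O := (Nle L).filter Adm

theorem mem_SO {L : ℝ} {n : O} : n ∈ SO L ↔ (N n : ℝ) ≤ L ∧ Sq n := by simp [SO]

theorem mem_AO {L : ℝ} {n : O} : n ∈ AO L ↔ (N n : ℝ) ≤ L ∧ Adm n := by simp [AO]

theorem SO_subset_Hn (L : ℝ) : SO L ⊆ Hn L := by
  intro n hn
  rw [mem_SO] at hn
  rw [mem_Hn]
  exact ⟨hn.1, hn.2.ne_zero⟩

theorem AO_subset_Hn (L : ℝ) : AO L ⊆ Hn L := by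
  intro n hn
  rw [mem_AO] at hn
  rw [mem_Hn]
  exact ⟨hn.1, hn.2.ne_zero⟩

theorem SO_mono {L L' : ℝ} (h : L ≤ L') : SO L ⊆ SO L' := by
  intro n hn
  rw [mem_SO] at *
  exact ⟨hn.1.trans h, hn.2⟩

theorem mem_SO_of_dvd {L : ℝ} {n d : O} (hn : n ∈ SO L) (hd : Prim d) (h : d ∣ n) : d ∈ SO L := by
  rw [mem_SO] at *
  exact ⟨(N_le_of_dvd hn.2.ne_zero h).trans hn.1, hn.2.of_dvd hd h⟩

theorem D_subset_SO {L : ℝ} {n : O} (hn : n ∈ SO L) : D n ⊆ SO L := by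
  intro d hd
  rw [mem_D (mem_SO.1 hn).2.ne_zero] at hd
  exact mem_SO_of_dvd hn hd.1 hd.2

theorem sq_of_mem_D {n d : O} (hn : Sq n) (hd : d ∈ D n) : Sq d := by
  rw [mem_D hn.ne_zero] at hd
  exact hn.of_dvd hd.1 hd.2

open Classical in
/-- multiples of `d` -/
theorem sum_dvd {M : Type*} [AddCommMonoid M] {L : ℝ} {d : O} (hd : Prim d) {f : O → M}
    (hf : ∀ n, n ∉ SO L → f n = 0) :
    ∑ n ∈ SO L, (if d ∣ n then f n else 0) = ∑ m ∈ SO L, f (d * m) := by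
  have hinj : ∀ x ∈ SO L, ∀ y ∈ SO L, d * x = d * y → x = y :=
    fun x _ y _ h => mul_left_cancel₀ hd.ne_zero h
  rw [← sum_image (s := SO L) (g := fun m => d * m) (f := f) hinj, ← sum_filter]
  refine sum_subset ?_ ?_
  · intro n hn
    rw [mem_filter] at hn
    obtain ⟨hn, m, rfl⟩ := hn
    rw [mem_image]
    exact ⟨m, mem_SO_of_dvd hn (hd.of_mul_left (mem_SO.1 hn).2.prim) (dvd_mul_left _ _), rfl⟩
  · intro n hn hn'
    rw [mem_image] at hn
    obtain ⟨m, -, rfl⟩ := hn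
    apply hf
    intro h
    exact hn' (mem_filter.2 ⟨h, dvd_mul_right _ _⟩)

/-- a function of two variables supported on pairs of the range -/
def Supp2 (L : ℝ) (F : O → O → ℂ) : Prop :=
  ∀ n1 n2, (n1 ∉ SO L ∨ n2 ∉ SO L) → F n1 n2 = 0

open Classical in
theorem sum_dvd2 {L : ℝ} {d : O} (hd : Prim d) {F : O → O → ℂ} (hF : Supp2 L F) :
    ∑ n1 ∈ SO L, ∑ n2 ∈ SO L, (if d ∣ n1 ∧ d ∣ n2 then F n1 n2 else 0) =
      ∑ m1 ∈ SO L, ∑ m2 ∈ SO L, F (d * m1) (d * m2) := by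
  have h1 : ∀ n1 ∈ SO L, ∑ n2 ∈ SO L, (if d ∣ n1 ∧ d ∣ n2 then F n1 n2 else 0) =
      if d ∣ n1 then ∑ m2 ∈ SO L, F n1 (d * m2) else 0 := by
    intro n1 _
    by_cases h : d ∣ n1
    · rw [if_pos h, ← sum_dvd hd (f := F n1) (fun n hn => hF n1 n (Or.inr hn))]
      refine sum_congr rfl fun n2 _ => ?_
      simp [h]
    · rw [if_neg h]
      exact sum_eq_zero fun n2 _ => by simp [h]
  rw [sum_congr rfl h1, sum_dvd hd (f := fun n1 => ∑ m2 ∈ SO L, F n1 (d * m2))]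
  intro n hn
  exact sum_eq_zero fun m2 _ => hF _ _ (Or.inl hn)

/-! ### the primary gcd -/

open Classical in
/-- the primary gcd of two primary elements -/
noncomputable def pg (k l : O) : O :=
  if h : Prim k ∧ Prim l then (exists_pgcd h.1 h.2).choose else 1

theorem pg_spec {k l : O} (hk : Prim k) (hl : Prim l) : ∃ a b : O, Prim (pg k l) ∧ Prim a ∧
    Prim b ∧ k = pg k l * a ∧ l = pg k l * b ∧ IsCoprime a b := by
  have h : Prim k ∧ Prim l := ⟨hk, hl⟩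
  rw [pg, dif_pos h]
  exact (exists_pgcd h.1 h.2).choose_spec

theorem pg_prim {k l : O} (hk : Prim k) (hl : Prim l) : Prim (pg k l) := by
  obtain ⟨a, b, h, -⟩ := pg_spec hk hl; exact h

theorem pg_dvd_left {k l : O} (hk : Prim k) (hl : Prim l) : pg k l ∣ k := by
  obtain ⟨a, b, -, -, -, h, -⟩ := pg_spec hk hl; exact ⟨a, h⟩

theorem dvd_pg_iff {k l d : O} (hk : Prim k) (hl : Prim l) : d ∣ pg k l ↔ d ∣ k ∧ d ∣ l := by
  obtain ⟨a, b, -, -, -, h1, h2, x, y, hxy⟩ := pg_spec hk hl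
  constructor
  · intro h
    exact ⟨h.trans ⟨a, h1⟩, h.trans ⟨b, h2⟩⟩
  · rintro ⟨h3, h4⟩
    have : pg k l = x * k + y * l := by
      linear_combination (-(pg k l)) * hxy - x * h1 - y * h2
    rw [this]
    exact dvd_add (h3.mul_left x) (h4.mul_left y)

theorem pg_mul_eq_iff {k a b : O} (hk : Prim k) (ha : Prim a) (hb : Prim b) :
    pg (k * a) (k * b) = k ↔ IsCoprime a b := by
  obtain ⟨a', b', h0, -, -, h1, h2, h3⟩ := pg_spec (hk.mul ha) (hk.mul hb)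
  constructor
  · intro h
    rw [h] at h1 h2
    rw [mul_left_cancel₀ hk.ne_zero h1, mul_left_cancel₀ hk.ne_zero h2]
    exact h3
  · intro h
    exact (pgcd_unique hk h0 h1 h2 h h3).symm

theorem pg_eq_one_iff {a b : O} (ha : Prim a) (hb : Prim b) : pg a b = 1 ↔ IsCoprime a b := by
  have := pg_mul_eq_iff prim_one ha hb
  rwa [one_mul, one_mul] at this

theorem pg_mem_SO {L : ℝ} {k l : O} (hk : k ∈ SO L) (hl : l ∈ SO L) : pg k l ∈ SO L :=
  mem_SO_of_dvd hk (pg_prim (mem_SO.1 hk).2.prim (mem_SO.1 hl).2.prim)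
    (pg_dvd_left (mem_SO.1 hk).2.prim (mem_SO.1 hl).2.prim)

/-- weights on common divisors -/
theorem sum_weight {L : ℝ} {F : O → O → ℂ} (hF : Supp2 L F) (φ : O → ℂ) :
    ∑ d ∈ SO L, φ d * ∑ m1 ∈ SO L, ∑ m2 ∈ SO L, F (d * m1) (d * m2) =
      ∑ n1 ∈ SO L, ∑ n2 ∈ SO L, (∑ d ∈ D (pg n1 n2), φ d) * F n1 n2 := by
  classical
  have h1 : ∀ d ∈ SO L, φ d * ∑ m1 ∈ SO L, ∑ m2 ∈ SO L, F (d * m1) (d * m2) =
      ∑ n1 ∈ SO L, ∑ n2 ∈ SO L, (if d ∣ n1 ∧ d ∣ n2 then φ d * F n1 n2 else 0) := by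
    intro d hd
    rw [← sum_dvd2 (mem_SO.1 hd).2.prim hF, mul_sum]
    refine sum_congr rfl fun n1 _ => ?_
    rw [mul_sum]
    refine sum_congr rfl fun n2 _ => ?_
    split_ifs <;> simp
  rw [sum_congr rfl h1, sum_comm]
  refine sum_congr rfl fun n1 h1 => ?_
  rw [sum_comm]
  refine sum_congr rfl fun n2 h2 => ?_
  have p1 := (mem_SO.1 h1).2.prim
  have p2 := (mem_SO.1 h2).2.prim
  rw [sum_mul, ← sum_filter]
  refine sum_congr ?_ fun _ _ => rfl
  ext d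
  rw [mem_filter, mem_D (pg_prim p1 p2).ne_zero, dvd_pg_iff p1 p2]
  constructor
  · rintro ⟨h3, h4⟩
    exact ⟨(mem_SO.1 h3).2.prim, h4⟩
  · rintro ⟨h3, h4⟩
    exact ⟨mem_SO_of_dvd h1 h3 h4.1, h4⟩

/-- decomposition according to the gcd -/
theorem sum_gcd {L : ℝ} {F : O → O → ℂ} (hF : Supp2 L F) (ψ : O → ℂ) :
    ∑ n1 ∈ SO L, ∑ n2 ∈ SO L, ψ (pg n1 n2) * F n1 n2 =
      ∑ k ∈ SO L, ψ k * ∑ m1 ∈ SO L, ∑ m2 ∈ SO L, cop m1 m2 * F (k * m1) (k * m2) := by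
  classical
  have h1 : ∀ k ∈ SO L, ∑ m1 ∈ SO L, ∑ m2 ∈ SO L, cop m1 m2 * F (k * m1) (k * m2) =
      ∑ n1 ∈ SO L, ∑ n2 ∈ SO L, (if pg n1 n2 = k then F n1 n2 else 0) := by
    intro k hk
    have pk := (mem_SO.1 hk).2.prim
    have hF' : Supp2 L fun n1 n2 => if pg n1 n2 = k then F n1 n2 else 0 := by
      intro n1 n2 h
      simp [hF n1 n2 h]
    have h2 := sum_dvd2 pk hF'
    have h3 : ∑ m1 ∈ SO L, ∑ m2 ∈ SO L, cop m1 m2 * F (k * m1) (k * m2) =
        ∑ m1 ∈ SO L, ∑ m2 ∈ SO L,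
          (if pg (k * m1) (k * m2) = k then F (k * m1) (k * m2) else 0) := by
      refine sum_congr rfl fun m1 h1 => sum_congr rfl fun m2 h2 => ?_
      rw [cop]
      simp only [pg_mul_eq_iff pk (mem_SO.1 h1).2.prim (mem_SO.1 h2).2.prim, isCoprime_comm (x := m2)]
      split_ifs <;> simp
    rw [h3, ← h2]
    refine sum_congr rfl fun n1 h1 => sum_congr rfl fun n2 h2 => ?_
    by_cases h : pg n1 n2 = k
    · rw [if_pos h, if_pos]
      rw [← dvd_pg_iff (mem_SO.1 h1).2.prim (mem_SO.1 h2).2.prim, h]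
    · simp [h]
  have h2 : ∀ k ∈ SO L, ψ k * ∑ m1 ∈ SO L, ∑ m2 ∈ SO L, cop m1 m2 * F (k * m1) (k * m2) =
      ∑ n1 ∈ SO L, ∑ n2 ∈ SO L, (if pg n1 n2 = k then ψ k * F n1 n2 else 0) := by
    intro k hk
    rw [h1 k hk, mul_sum]
    refine sum_congr rfl fun n1 _ => ?_
    rw [mul_sum]
    refine sum_congr rfl fun n2 _ => ?_
    split_ifs <;> simp
  rw [sum_congr rfl h2, sum_comm (s := SO L) (t := SO L)
    (f := fun k n1 => ∑ n2 ∈ SO L, (if pg n1 n2 = k then ψ k * F n1 n2 else 0))]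
  refine sum_congr rfl fun n1 h1 => ?_
  rw [sum_comm]
  refine sum_congr rfl fun n2 h2 => ?_
  rw [sum_ite_eq, if_pos (pg_mem_SO h1 h2)]

theorem sum_mob_D {δ : O} (h1 : Prim δ) (h2 : Squarefree δ) :
    ∑ d ∈ D δ, mob d = if δ = 1 then 1 else 0 := by
  classical
  have h := sum_mob δ h1 h2 0
  simp only [dvd_zero, if_true, isCoprime_zero_right] at h
  rw [h]
  by_cases h3 : δ = 1
  · simp [h3]
  · rw [if_neg h3, if_neg]
    intro h4; exact h3 (h1.eq_one_of_isUnit h4)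

/-- Moebius removal of coprimality -/
theorem sum_cop {L : ℝ} {G : O → O → ℂ} (hG : Supp2 L G) :
    ∑ m1 ∈ SO L, ∑ m2 ∈ SO L, cop m1 m2 * G m1 m2 =
      ∑ d ∈ SO L, mob d * ∑ n1 ∈ SO L, ∑ n2 ∈ SO L, G (d * n1) (d * n2) := by
  classical
  rw [sum_weight hG]
  refine sum_congr rfl fun m1 h1 => sum_congr rfl fun m2 h2 => ?_
  have p1 := (mem_SO.1 h1).2.prim
  have p2 := (mem_SO.1 h2).2.prim
  rw [sum_mob_D (pg_prim p1 p2) (mem_SO.1 (pg_mem_SO h1 h2)).2.2, cop]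
  simp only [pg_eq_one_iff p1 p2, isCoprime_comm (x := m2)]

/-! ### divisor bounds -/

theorem exists_kernel {v : O} (hv : v ≠ 0) : ∃ r : O, Prim r ∧ Squarefree r ∧ r ∣ v ∧
    ∀ k : O, Prim k → Squarefree k → k ∣ v → k ∣ r := by
  classical
  set T := (D v).filter Squarefree with hT
  have hne : T.Nonempty := ⟨1, by
    rw [hT, mem_filter, mem_D hv]; exact ⟨⟨prim_one, one_dvd _⟩, squarefree_one⟩⟩
  obtain ⟨r, hr, hmax⟩ := T.exists_max_image N hne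
  rw [hT, mem_filter, mem_D hv] at hr
  refine ⟨r, hr.1.1, hr.2, hr.1.2, fun k hk hsk hkv => ?_⟩
  obtain ⟨δ, a, b, hδ, ha, hb, h1, h2, hab⟩ := exists_pgcd hk hr.1.1
  have hδa : IsCoprime δ a := by
    rw [h1] at hsk
    exact isRelPrime_iff_isCoprime.1 (squarefree_mul_iff.1 hsk).1
  have hra : IsCoprime r a := by
    rw [h2]; exact hδa.mul_left hab.symm
  have hsa : Squarefree a := hsk.squarefree_of_dvd ⟨δ, by rw [h1]; ring⟩
  have hav : a ∣ v := (Dvd.intro_left δ h1.symm).trans hkv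
  have h3 : r * a ∈ T := by
    rw [hT, mem_filter, mem_D hv]
    exact ⟨⟨hr.1.1.mul ha, hra.mul_dvd hr.1.2 hav⟩,
      squarefree_mul_iff.2 ⟨hra.isRelPrime, hr.2, hsa⟩⟩
  have h4 := hmax _ h3
  rw [N_mul] at h4
  have h5 : N a = 1 := by
    have p1 := hr.1.1.N_pos
    have p2 := ha.N_pos
    nlinarith
  have h6 : a = 1 := ha.eq_one_of_isUnit (isUnit_iff_N.2 h5)
  rw [h1, h6, mul_one, h2]
  exact dvd_mul_right _ _

open Classical in
/-- the number of squarefree admissible divisors of a nonzero element -/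
theorem card_SO_dvd_le {ε : ℝ} (hε : 0 < ε) : ∃ C : ℝ, 1 ≤ C ∧ ∀ (L : ℝ) (v : O), v ≠ 0 →
    (((SO L).filter (fun k => k ∣ v)).card : ℝ) ≤ C * (N v : ℝ) ^ ε := by
  obtain ⟨C, hC, h⟩ := card_D_le hε
  refine ⟨C, hC, fun L v hv => ?_⟩
  obtain ⟨r, h1, h2, h3, h4⟩ := exists_kernel hv
  have hsub : (SO L).filter (fun k => k ∣ v) ⊆ D r := by
    intro k hk
    rw [mem_filter, mem_SO] at hk
    rw [mem_D h1.ne_zero]
    exact ⟨hk.1.2.prim, h4 k hk.1.2.prim hk.1.2.2 hk.2⟩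
  calc (((SO L).filter (fun k => k ∣ v)).card : ℝ) ≤ (D r).card := by
        exact_mod_cast card_le_card hsub
    _ ≤ C * (N r : ℝ) ^ ε := h r h1 h2
    _ ≤ C * (N v : ℝ) ^ ε := by
        have := N_le_of_dvd hv h3
        gcongr

theorem card_D_mono {a b : O} (hb : b ≠ 0) (h : a ∣ b) : (D a).card ≤ (D b).card := by
  apply card_le_card
  intro d hd
  rw [mem_D (ne_zero_of_dvd_ne_zero hb h)] at hd
  rw [mem_D hb]
  exact ⟨hd.1, hd.2.trans h⟩

/-- `∑ τ(k)^j / N k ≪ L^ε` -/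
theorem sum_tau_div_le (j : ℕ) {ε : ℝ} (hε : 0 < ε) : ∃ C : ℝ, 0 < C ∧ ∀ L : ℝ, 1 ≤ L →
    ∑ k ∈ SO L, ((D k).card : ℝ) ^ j * (N k : ℝ)⁻¹ ≤ C * L ^ ε := by
  obtain ⟨C1, hC1, h1⟩ := card_D_le (ε := ε / 2 / (j + 1)) (by positivity)
  obtain ⟨C2, hC2, h2⟩ := sum_inv_N_le (ε := ε / 2) (by positivity)
  refine ⟨C1 ^ j * C2, by positivity, fun L hL => ?_⟩
  have h3 : ∀ k ∈ SO L, ((D k).card : ℝ) ^ j ≤ C1 ^ j * L ^ (ε / 2) := by
    intro k hk
    rw [mem_SO] at hk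
    have h4 := h1 k hk.2.prim hk.2.2
    have h5 : (N k : ℝ) ^ (ε / 2 / (j + 1)) ≤ L ^ (ε / 2 / (j + 1)) := by
      gcongr; exact hk.1
    calc ((D k).card : ℝ) ^ j ≤ (C1 * L ^ (ε / 2 / (j + 1))) ^ j := by
          gcongr
          exact h4.trans (by gcongr)
      _ = C1 ^ j * L ^ (ε / 2 / (j + 1) * j) := by
          rw [mul_pow, ← Real.rpow_natCast (L ^ _), ← Real.rpow_mul (by linarith)]
      _ ≤ C1 ^ j * L ^ (ε / 2) := by
          gcongr
          rw [div_mul_eq_mul_div, div_le_iff₀ (by positivity)]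
          nlinarith
  calc ∑ k ∈ SO L, ((D k).card : ℝ) ^ j * (N k : ℝ)⁻¹
      ≤ ∑ k ∈ SO L, C1 ^ j * L ^ (ε / 2) * (N k : ℝ)⁻¹ :=
        sum_le_sum fun k hk => by gcongr; exact h3 k hk
    _ = C1 ^ j * L ^ (ε / 2) * ∑ k ∈ SO L, (N k : ℝ)⁻¹ := by rw [mul_sum]
    _ ≤ C1 ^ j * L ^ (ε / 2) * ∑ k ∈ Hn L, (N k : ℝ)⁻¹ := by
        gcongr
        exact SO_subset_Hn L
    _ ≤ C1 ^ j * L ^ (ε / 2) * (C2 * L ^ (ε / 2)) := by
        gcongr
        exact h2 L (by linarith)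
    _ = C1 ^ j * C2 * L ^ ε := by
        have : L ^ ε = L ^ (ε / 2) * L ^ (ε / 2) := by
          rw [← Real.rpow_add (by linarith)]; congr 1; ring
        rw [this]; ring

/-- `∑ τ(k)^j ≪ L^{1+ε}` -/
theorem sum_tau_le (j : ℕ) {ε : ℝ} (hε : 0 < ε) : ∃ C : ℝ, 0 < C ∧ ∀ L : ℝ, 1 ≤ L →
    ∑ k ∈ SO L, ((D k).card : ℝ) ^ j ≤ C * (L * L ^ ε) := by
  obtain ⟨C, hC, h⟩ := sum_tau_div_le j hε
  refine ⟨C, hC, fun L hL => ?_⟩
  calc ∑ k ∈ SO L, ((D k).card : ℝ) ^ j ≤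
      ∑ k ∈ SO L, L * (((D k).card : ℝ) ^ j * (N k : ℝ)⁻¹) := by
        refine sum_le_sum fun k hk => ?_
        rw [mem_SO] at hk
        have h1 := N_pos' hk.2.ne_zero
        rw [mul_left_comm, ← div_eq_mul_inv]
        exact le_mul_of_one_le_right (by positivity) ((one_le_div h1).2 hk.1)
    _ = L * ∑ k ∈ SO L, ((D k).card : ℝ) ^ j * (N k : ℝ)⁻¹ := by rw [mul_sum]
    _ ≤ L * (C * L ^ ε) := by gcongr; exact h L hL
    _ = _ := by ring

/-! ### the character -/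

namespace Sext

variable (S : Sext)

theorem chi_eq_zero {n u : O} (hn : Adm n) (h : ¬ IsCoprime u n) : S.chi n u = 0 := by
  have h1 := S.conj_mul n u hn
  rw [cop, if_neg h, mul_comm, Complex.mul_conj, Complex.ofReal_eq_zero,
    Complex.normSq_eq_zero] at h1
  exact h1

theorem norm_chi {n u : O} (hn : Adm n) (h : IsCoprime u n) : ‖S.chi n u‖ = 1 := by
  have h1 := S.conj_mul n u hn
  rw [cop, if_pos h, mul_comm, Complex.mul_conj, Complex.normSq_eq_norm_sq] at h1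
  have h2 : ‖S.chi n u‖ ^ 2 = 1 := by exact_mod_cast h1
  exact (pow_eq_one_iff_of_nonneg (norm_nonneg _) two_ne_zero).1 h2

theorem norm_chi_le {n : O} (hn : Adm n) (u : O) : ‖S.chi n u‖ ≤ 1 := by
  by_cases h : IsCoprime u n
  · exact (S.norm_chi hn h).le
  · rw [S.chi_eq_zero hn h]; simp

theorem chi_one {n : O} (hn : Adm n) : S.chi n 1 = 1 := by
  have h1 := S.chi_mul n 1 1 hn
  rw [mul_one] at h1
  have h2 : S.chi n 1 ≠ 0 := by
    intro h
    have := S.norm_chi hn (u := 1) isCoprime_one_left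
    rw [h] at this; simp at this
  have h3 : S.chi n 1 * 1 = S.chi n 1 * S.chi n 1 := by rw [mul_one]; exact h1
  exact (mul_left_cancel₀ h2 h3).symm

theorem chi_pow {n : O} (hn : Adm n) (u : O) (k : ℕ) : S.chi n (u ^ k) = S.chi n u ^ k := by
  induction k with
  | zero => simpa using S.chi_one hn
  | succ k ih => rw [pow_succ, S.chi_mul _ _ _ hn, ih, pow_succ]

theorem chi_pow_six {n : O} (hn : Adm n) (u : O) : S.chi n (u ^ 6) = cop n u := by
  rw [S.chi_pow hn, ← S.conj_mul n u hn, S.conj_eq n u hn]; ring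

theorem chi_zero {n : O} (hn : Adm n) (h : n ≠ 1) : S.chi n 0 = 0 := by
  apply S.chi_eq_zero hn
  intro h1
  exact h (hn.prim.eq_one_of_isUnit (isCoprime_zero_left.1 h1))

theorem cop_mul_chi {n : O} (hn : Adm n) {k v : O} (h : k ∣ v) :
    cop n k * S.chi n v = S.chi n v := by
  rw [cop]
  split_ifs with h1
  · rw [one_mul]
  · rw [zero_mul, S.chi_eq_zero hn]
    intro h2
    exact h1 (h2.of_isCoprime_of_dvd_left h)

end Sext

theorem cop_mul_right (n a b : O) : cop n (a * b) = cop n a * cop n b := by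
  have h : IsCoprime (a * b) n ↔ IsCoprime a n ∧ IsCoprime b n := IsCoprime.mul_left_iff
  by_cases h1 : IsCoprime a n <;> by_cases h2 : IsCoprime b n <;> simp [cop, h, h1, h2]

theorem norm_cop_le (a b : O) : ‖cop a b‖ ≤ 1 := by
  rw [cop]; split_ifs <;> simp

theorem conj_cop (a b : O) : conj (cop a b) = cop a b := by
  rw [cop]; split_ifs <;> simp

end Vale.Agent.P026Z.Poi
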