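import Vale.Agent.P026Z.Poi.Iface

/-!
P026, block POI: the trivial bound and the bootstrap of the exponent.
-/

namespace Vale.Agent.P026Z.Poi

open Vale.Agent.P006 Vale.Agent.P006.V1 Vale.Agent.P006.HB Finset

/-- the trivial bound -/
theorem triv_bound (S : Sext) {W : ℝ → ℂ} (hW : IsWt W) {ε : ℝ} (hε : 0 < ε) :
    ∃ C : ℝ, 0 ≤ C ∧ ∀ κ : O → ℂ, Cls S.q κ → ∀ t D H : ℝ, 0 < D → 0 ≤ H →
      ∑ u ∈ Hn H, ‖Asum S κ W D t u‖ ^ 2 ≤ C * D ^ (2 + 2 * ε) * H ^ (1 + ε) := by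
  obtain ⟨a, b, M, ha, hab, hb1, hM, hsupp, hbd⟩ := hW.bounds
  obtain ⟨C, hC, hcard⟩ := card_Hn_le hε
  have hb0 : 0 < b := by linarith
  refine ⟨(M * C * b ^ (1 + ε)) ^ 2 * C, by positivity, fun κ hκ t D H hD hH => ?_⟩
  have hA : ∀ u, ‖Asum S κ W D t u‖ ≤ M * C * b ^ (1 + ε) * D ^ (1 + ε) := by
    intro u
    rw [S.Asum_eq, S.Sm_eq _ (b := b) (fun x hx => (hsupp x hx).2) hD le_rfl]
    refine (norm_sum_le _ _).trans ?_
    have h1 : ∀ n ∈ SO (b * D), ‖mob n * κ n * S.chi n u * wt W t (N n / D)‖ ≤ M := by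
      intro n hn
      have hn' := (mem_SO.1 hn).2
      rw [norm_mul, norm_mul, norm_mul, norm_mob, one_mul,
        norm_wt (div_pos (N_pos' hn'.ne_zero) hD)]
      have h2 := hκ.2 n
      have h3 := S.norm_chi_le hn'.1 u
      calc ‖κ n‖ * ‖S.chi n u‖ * ‖W (N n / D)‖ ≤ 1 * 1 * M := by
            gcongr
            exact hbd _
        _ = M := by ring
    refine (sum_le_sum h1).trans ?_
    rw [sum_const, nsmul_eq_mul]
    have h4 : ((SO (b * D)).card : ℝ) ≤ C * (b * D) ^ (1 + ε) :=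
      le_trans (by exact_mod_cast card_le_card (SO_subset_Hn _)) (hcard _ (by positivity))
    rw [Real.mul_rpow hb0.le hD.le] at h4
    calc ((SO (b * D)).card : ℝ) * M ≤ C * (b ^ (1 + ε) * D ^ (1 + ε)) * M := by gcongr
      _ = _ := by ring
  have hA2 : ∀ u ∈ Hn H, ‖Asum S κ W D t u‖ ^ 2 ≤ (M * C * b ^ (1 + ε)) ^ 2 * D ^ (2 + 2 * ε) := by
    intro u _
    have e : D ^ (2 + 2 * ε) = (D ^ (1 + ε)) ^ 2 := by
      rw [← Real.rpow_natCast, ← Real.rpow_mul hD.le]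
      congr 1
      push_cast
      ring
    rw [e, ← mul_pow]
    exact pow_le_pow_left₀ (norm_nonneg _) (hA u) 2
  refine (sum_le_sum hA2).trans ?_
  rw [sum_const, nsmul_eq_mul]
  calc ((Hn H).card : ℝ) * ((M * C * b ^ (1 + ε)) ^ 2 * D ^ (2 + 2 * ε))
      ≤ C * H ^ (1 + ε) * ((M * C * b ^ (1 + ε)) ^ 2 * D ^ (2 + 2 * ε)) := by
        gcongr
        exact hcard H hH
    _ = _ := by ring

theorem le_of_rpow_le {θ D H : ℝ} (h0 : 0 ≤ θ) (hH : 1 ≤ H) (h : D ^ (1 + θ) ≤ H) : D ≤ H := by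
  rcases le_or_gt D 1 with hD | hD
  · exact hD.trans hH
  · refine le_trans ?_ h
    have := Real.rpow_le_rpow_of_exponent_le hD.le (show (1 : ℝ) ≤ 1 + θ by linarith)
    rwa [Real.rpow_one] at this

theorem mbexp_one (S : Sext) {θ : ℝ} (h0 : 0 ≤ θ) : MBexp S θ 1 := by
  intro W hW δ hδ
  obtain ⟨C, hC, h⟩ := triv_bound S hW (ε := δ / 3) (by linarith)
  refine ⟨C, 0, fun κ hκ t D H hD hH hDH => (h κ hκ t D H hD (by linarith)).trans ?_⟩
  have hH0 : 0 < H := by linarith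
  have h1 : D ^ (2 * (δ / 3)) ≤ H ^ (2 * (δ / 3)) :=
    Real.rpow_le_rpow hD.le (le_of_rpow_le h0 hH hDH) (by linarith)
  have e1 : H ^ (1 + δ) = H ^ (2 * (δ / 3)) * H ^ (1 + δ / 3) := by
    rw [← Real.rpow_add hH0]
    congr 1
    ring
  rw [Real.rpow_add hD, e1, pow_zero, mul_one, show (1 : ℝ) + 1 = 2 by norm_num]
  calc C * (D ^ (2 : ℝ) * D ^ (2 * (δ / 3))) * H ^ (1 + δ / 3)
      ≤ C * (D ^ (2 : ℝ) * H ^ (2 * (δ / 3))) * H ^ (1 + δ / 3) := by gcongr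
    _ = _ := by ring

theorem mbexp_of_mbexp1 (S : Sext) {θ β : ℝ} (_h0 : 0 ≤ θ) (_hb0 : 0 ≤ β) (hb1 : β ≤ 1) :
    MBexp1 S θ β → MBexp S θ β := by
  intro h1 W hW δ hδ
  obtain ⟨C, hC, h⟩ := triv_bound S hW hδ
  obtain ⟨C1, K, h2⟩ := h1 W hW δ hδ
  refine ⟨max C C1, K, fun κ hκ t D H hD hH hDH => ?_⟩
  have hH0 : 0 < H := by linarith
  have ht : (1 : ℝ) ≤ (1 + |t|) ^ K := one_le_pow₀ (by linarith [abs_nonneg t])
  rcases le_or_gt 1 D with hD1 | hD1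
  · refine (h2 κ hκ t D H hD1 hDH).trans ?_
    gcongr
    exact le_max_right _ _
  · refine (h κ hκ t D H hD hH0.le).trans ?_
    have h3 : D ^ (2 + 2 * δ) ≤ D ^ (1 + β) :=
      Real.rpow_le_rpow_of_exponent_ge hD hD1.le (by linarith)
    have h4 : C ≤ max C C1 * (1 + |t|) ^ K :=
      (le_max_left C C1).trans (le_mul_of_one_le_right (hC.trans (le_max_left _ _)) ht)
    have h5 : 0 ≤ max C C1 * (1 + |t|) ^ K := hC.trans h4
    gcongr

theorem MB_of_step (S : Sext)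
    (hstep : ∀ θ : ℝ, 0 < θ → θ ≤ 1 / 2 → ∀ β : ℝ, 0 ≤ β → β ≤ 1 → MBexp S θ β →
      MBexp1 S θ ((1 - θ ^ 2 / 40) * β)) : MB S := by
  intro θ hθ W hW δ hδ
  set θ' : ℝ := min θ (1 / 2) with hθ'
  have hθ0 : 0 < θ' := lt_min hθ (by norm_num)
  have hθ1 : θ' ≤ 1 / 2 := min_le_right _ _
  have hθ2 : θ' ≤ θ := min_le_left _ _
  set η : ℝ := 1 - θ' ^ 2 / 40 with hη
  have hη0 : 0 ≤ η := by rw [hη]; nlinarith
  have hη1 : η < 1 := by
    have : 0 < θ' ^ 2 := by positivity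
    rw [hη]; linarith
  have hind : ∀ k : ℕ, MBexp S θ' (η ^ k) := by
    intro k
    induction k with
    | zero => rw [pow_zero]; exact mbexp_one S hθ0.le
    | succ k ih =>
      rw [pow_succ']
      refine mbexp_of_mbexp1 S hθ0.le (by positivity) ?_
        (hstep θ' hθ0 hθ1 _ (by positivity) (pow_le_one₀ hη0 hη1.le) ih)
      rw [← pow_succ']
      exact pow_le_one₀ hη0 hη1.le
  obtain ⟨k, hk⟩ := exists_pow_lt_of_lt_one (show 0 < δ / 2 by linarith) hη1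
  obtain ⟨C, K, h⟩ := hind k W hW (δ / 2) (by linarith)
  refine ⟨max C 0, K, fun κ hκ t D H hD hH hDH => ?_⟩
  have hH0 : 0 < H := by linarith
  have hDH' : D ^ (1 + θ') ≤ H := by
    rcases le_or_gt 1 D with hD1 | hD1
    · exact (Real.rpow_le_rpow_of_exponent_le hD1 (by linarith)).trans hDH
    · exact (Real.rpow_le_one hD.le hD1.le (by linarith)).trans hH
  refine (h κ hκ t D H hD hH hDH').trans ?_
  have hk0 : 0 ≤ η ^ k := by positivity
  have h1 : D ^ (η ^ k) ≤ H ^ (δ / 2) :=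
    (Real.rpow_le_rpow hD.le (le_of_rpow_le hθ.le hH hDH) hk0).trans
      (Real.rpow_le_rpow_of_exponent_le hH hk.le)
  have e1 : H ^ (1 + δ) = H ^ (δ / 2) * H ^ (1 + δ / 2) := by
    rw [← Real.rpow_add hH0]
    congr 1
    ring
  rw [Real.rpow_add hD, Real.rpow_one, e1]
  have h2 : C ≤ max C 0 := le_max_left _ _
  have h3 : 0 ≤ max C 0 := le_max_right _ _
  calc C * (1 + |t|) ^ K * (D * D ^ (η ^ k)) * H ^ (1 + δ / 2)
      ≤ max C 0 * (1 + |t|) ^ K * (D * H ^ (δ / 2)) * H ^ (1 + δ / 2) := by gcongr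
    _ = _ := by ring

end Vale.Agent.P026Z.Poi
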