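import Vale.Agent.P026Z.Poi.Basic
import Vale.Agent.P006.PS.Expand

/-!
P026, block POI: Poisson summation for a pair of characters, forwards and backwards.
-/

namespace Vale.Agent.P026Z.Poi

open Vale.Agent.P006 Vale.Agent.P006.V1 Vale.Agent.P006.HB Finset
open Vale.Agent.P006.PS (b0 b0_pos gau gau_continuous gau_dec FT_gau FT_gau_dec gau_toC reps
  isResSys_reps GS_eq per_iff summable_pair cop_eq_sum)
open scoped ComplexConjugate

/-- the Gaussian weight -/
noncomputable def gw (A : ℝ) (x : O) : ℝ := Real.exp (-(b0 * N x / A))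

theorem gw_pos (A : ℝ) (x : O) : 0 < gw A x := Real.exp_pos _

theorem gw_zero (A : ℝ) : gw A 0 = 1 := by simp [gw]

theorem summable_gw {A : ℝ} (hA : 0 < A) {ψ : O → ℂ} {M : ℝ} (hψ : ∀ x, ‖ψ x‖ ≤ M) :
    Summable fun x : O => ψ x * (gw A x : ℂ) := by
  have h := (summable_pair hA (ψ := fun _ => 1) (fun _ => by simp)).norm.mul_left M
  refine Summable.of_norm_bounded h fun x => ?_
  rw [norm_mul, one_mul]
  exact mul_le_mul_of_nonneg_right (hψ x) (norm_nonneg _)

theorem summable_gw_real {A : ℝ} (hA : 0 < A) {f : O → ℝ} {M : ℝ} (hf : ∀ x, |f x| ≤ M) :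
    Summable fun x : O => f x * gw A x := by
  have h := summable_gw hA (ψ := fun x => (f x : ℂ)) (M := M) (fun x => by simpa using hf x)
  have h2 : Summable fun x : O => ((f x * gw A x : ℝ) : ℂ) := by simpa using h
  exact Complex.summable_ofReal.1 h2

namespace Sext

variable (S : Sext)

/-- the Gaussian character sum of a pair -/
noncomputable def psum (A : ℝ) (a b : O) : ℂ :=
  ∑' x : O, (conj (S.chi a x) * S.chi b x) * (gw A x : ℂ)

/-- the constant of the pair identity -/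
noncomputable def cst (a b : O) : ℂ := S.Esg a b * (mob a * mob b) * (S.g a * conj (S.g b))

/-- the naive dual sum of a pair -/
noncomputable def Fd (A : ℝ) (a b : O) : ℂ :=
  ((A / (Real.sqrt (N a) * Real.sqrt (N b)) : ℝ) : ℂ) * (S.cst a b * S.psum (N a * N b / A) b a)

theorem norm_pair_le {a b : O} (ha : Adm a) (hb : Adm b) (x : O) :
    ‖conj (S.chi a x) * S.chi b x‖ ≤ 1 := by
  rw [norm_mul, Complex.norm_conj]
  exact mul_le_one₀ (S.norm_chi_le ha x) (norm_nonneg _) (S.norm_chi_le hb x)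

theorem summable_psum {A : ℝ} (hA : 0 < A) {a b : O} (ha : Adm a) (hb : Adm b) :
    Summable fun x : O => (conj (S.chi a x) * S.chi b x) * (gw A x : ℂ) :=
  summable_gw hA (S.norm_pair_le ha hb)

/-- **The pair identity.** -/
theorem psum_eq_Fd {a b : O} (ha : Sq a) (hb : Sq b) (hab : IsCoprime a b) {A : ℝ} (hA : 0 < A) :
    S.psum A a b = S.Fd A a b := by
  have na : NeZero a := ⟨ha.ne_zero⟩
  have nb : NeZero b := ⟨hb.ne_zero⟩
  have nab : NeZero (a * b) := ⟨mul_ne_zero ha.ne_zero hb.ne_zero⟩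
  have hper : V1.Per (a * b) (fun y => conj (S.chi a y) * S.chi b y) :=
    ((S.chi_per a ha.1).conj.mono (dvd_mul_right _ _)).mul
      ((S.chi_per b hb.1).mono (dvd_mul_left _ _))
  have key := PO.poisson_per (gau_continuous A) (gau_dec hA) (FT_gau_dec hA)
    (NeZero.ne (a * b)) (isResSys_reps (a * b)) (per_iff hper)
  simp only [gau_toC] at key
  have key2 := key.tsum_eq
  rw [psum]
  simp only [gw]
  rw [← key2, Fd, psum, ← tsum_mul_left, ← tsum_mul_left]
  refine tsum_congr fun h => ?_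
  rw [GS_eq, S.pair a b h ha hb hab, FT_gau hA]
  have pa : (0 : ℝ) < N a := N_pos' ha.ne_zero
  have pb : (0 : ℝ) < N b := N_pos' hb.ne_zero
  have qa : 0 < Real.sqrt (N a) := Real.sqrt_pos.2 pa
  have qb : 0 < Real.sqrt (N b) := Real.sqrt_pos.2 pb
  have e1 : gau (1 / (3 * A)) (toC h / (toC PO.rt3 * toC (a * b))) =
      ((gw (N a * N b / A) h : ℝ) : ℂ) := by
    rw [gau, gw, norm_div, norm_mul, div_pow, mul_pow, ← N_eq_sq_norm, ← N_eq_sq_norm,
      ← N_eq_sq_norm, PO.N_rt3, N_mul]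
    push_cast
    congr 2
    field_simp
  have e2 : ((A / (Real.sqrt (N a) * Real.sqrt (N b)) : ℝ) : ℂ) =
      (2 / (Real.sqrt 3 * N (a * b)) : ℂ) * (((Real.sqrt (N a) * Real.sqrt (N b) : ℝ) : ℂ) *
        ((Real.sqrt 3 / 2 * A : ℝ) : ℂ)) := by
    have s3 : 0 < Real.sqrt 3 := by positivity
    have ea : Real.sqrt (N a) ^ 2 = N a := Real.sq_sqrt pa.le
    have eb : Real.sqrt (N b) ^ 2 = N b := Real.sq_sqrt pb.le
    have : (A / (Real.sqrt (N a) * Real.sqrt (N b)) : ℝ) =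
      (2 / (Real.sqrt 3 * N (a * b)) : ℝ) * ((Real.sqrt (N a) * Real.sqrt (N b) : ℝ) *
        (Real.sqrt 3 / 2 * A : ℝ)) := by
      rw [N_mul]
      push_cast
      rw [← ea, ← eb, Real.sqrt_sq qa.le, Real.sqrt_sq qb.le]
      field_simp
    exact_mod_cast this
  rw [e1, e2, cst]
  ring

theorem tsum_dvd {A : ℝ} (hA : 0 < A) {d a b : O} (hd : d ≠ 0) (ha : Adm a) (hb : Adm b) :
    (∑' n : O, (if d ∣ n then mob d else 0) * ((conj (S.chi a n) * S.chi b n) * (gw A n : ℂ))) =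
      mob d * (conj (S.chi a d) * S.chi b d) * S.psum (A / N d) a b := by
  have hinj : Function.Injective fun x : O => d * x := mul_right_injective₀ hd
  have hpd : (0 : ℝ) < N d := N_pos' hd
  rw [← hinj.tsum_eq (f := fun n => (if d ∣ n then mob d else 0) *
      ((conj (S.chi a n) * S.chi b n) * (gw A n : ℂ)))]
  · rw [psum, ← tsum_mul_left]
    refine tsum_congr fun x => ?_
    rw [if_pos (dvd_mul_right d x), S.chi_mul _ _ _ ha, S.chi_mul _ _ _ hb, map_mul]
    have : gw A (d * x) = gw (A / N d) x := by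
      rw [gw, gw, N_mul']
      congr 1
      field_simp
    rw [this]
    ring
  · intro n hn
    rw [Function.mem_support] at hn
    by_contra hne
    apply hn
    rw [if_neg, zero_mul]
    rintro ⟨x, rfl⟩
    exact hne ⟨x, rfl⟩

theorem psum_mul {A : ℝ} (hA : 0 < A) {δ a b : O} (hδ : Sq δ) (ha : Adm a) (hb : Adm b) :
    S.psum A (δ * a) (δ * b) =
      ∑ d ∈ D δ, mob d * (conj (S.chi a d) * S.chi b d) * S.psum (A / N d) a b := by
  have h1 : ∀ n : O, (conj (S.chi (δ * a) n) * S.chi (δ * b) n) * (gw A n : ℂ) =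
      ∑ d ∈ D δ, (if d ∣ n then mob d else 0) *
        ((conj (S.chi a n) * S.chi b n) * (gw A n : ℂ)) := by
    intro n
    rw [← Finset.sum_mul, ← cop_eq_sum hδ.prim hδ.2, S.chi_mul_left _ _ _ hδ.1 ha,
      S.chi_mul_left _ _ _ hδ.1 hb, map_mul, ← S.conj_mul δ n hδ.1]
    ring
  rw [psum, tsum_congr h1, Summable.tsum_finsetSum]
  · refine Finset.sum_congr rfl fun d hd => ?_
    rw [mem_D hδ.ne_zero] at hd
    exact S.tsum_dvd hA hd.1.ne_zero ha hb
  · intro d _
    have h2 : ∀ n : O, (if d ∣ n then mob d else 0) * ((conj (S.chi a n) * S.chi b n) *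
      (gw A n : ℂ)) = ((if d ∣ n then mob d else 0) *
        (conj (S.chi a n) * S.chi b n)) * (gw A n : ℂ) := fun n => by ring
    simp only [h2]
    refine summable_gw hA (M := 1) fun n => ?_
    rw [norm_mul]
    refine mul_le_one₀ ?_ (norm_nonneg _) (S.norm_pair_le ha hb n)
    split_ifs
    · rw [norm_mob]
    · rw [norm_zero]; exact zero_le_one

/-- expansion of the Gaussian-weighted square -/
theorem tsum_sq_eq {A : ℝ} (hA : 0 < A) {T : Finset O} (hT : ∀ n ∈ T, Adm n) (c : O → ℂ) :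
    ((∑' x : O, ‖∑ n ∈ T, c n * S.chi n x‖ ^ 2 * gw A x : ℝ) : ℂ) =
      ∑ n1 ∈ T, ∑ n2 ∈ T, conj (c n1) * c n2 * S.psum A n1 n2 := by
  rw [Complex.ofReal_tsum]
  have h1 : ∀ x : O, ((‖∑ n ∈ T, c n * S.chi n x‖ ^ 2 * gw A x : ℝ) : ℂ) =
      ∑ n1 ∈ T, ∑ n2 ∈ T, conj (c n1) * c n2 *
        ((conj (S.chi n1 x) * S.chi n2 x) * (gw A x : ℂ)) := by
    intro x
    rw [Complex.ofReal_mul, Complex.ofReal_pow, ← Complex.conj_mul', map_sum, sum_mul_sum, sum_mul]
    refine sum_congr rfl fun n1 _ => ?_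
    rw [sum_mul]
    refine sum_congr rfl fun n2 _ => ?_
    rw [map_mul]; ring
  rw [tsum_congr h1, Summable.tsum_finsetSum]
  · refine sum_congr rfl fun n1 h1 => ?_
    rw [Summable.tsum_finsetSum]
    · refine sum_congr rfl fun n2 h2 => ?_
      rw [tsum_mul_left, psum]
    · intro n2 h2
      exact (S.summable_psum hA (hT n1 h1) (hT n2 h2)).mul_left _
  · intro n1 h1
    exact summable_sum fun n2 h2 => (S.summable_psum hA (hT n1 h1) (hT n2 h2)).mul_left _

end Sext

/-- the frequency `u k (k/e)` of the backward Poisson summation -/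
noncomputable def vv (k e u : O) : O := u * (k * (k / e))

theorem eq_mul_div {k e : O} (he : e ≠ 0) (h : e ∣ k) : k = e * (k / e) :=
  (EuclideanDomain.mul_div_cancel' he h).symm

theorem N_vv {k e : O} (he : e ≠ 0) (h : e ∣ k) (u : O) :
    (N (vv k e u) : ℝ) * N e = N u * (N k) ^ 2 := by
  have h1 : (N k : ℝ) = N e * N (k / e) := by
    conv_lhs => rw [eq_mul_div he h]
    rw [N_mul']
  rw [vv, N_mul', N_mul', sq]
  nth_rewrite 3 [h1]
  ring

theorem dvd_vv (k e u : O) : k ∣ vv k e u := ⟨u * (k / e), by rw [vv]; ring⟩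

theorem vv_zero (k e : O) : vv k e 0 = 0 := by simp [vv]

theorem div_ne_zero' {k e : O} (hk : k ≠ 0) (he : e ≠ 0) (h : e ∣ k) : k / e ≠ 0 := by
  intro h0
  apply hk
  rw [eq_mul_div he h, h0, mul_zero]

theorem vv_ne_zero {k e u : O} (hk : k ≠ 0) (he : e ≠ 0) (h : e ∣ k) (hu : u ≠ 0) :
    vv k e u ≠ 0 := mul_ne_zero hu (mul_ne_zero hk (div_ne_zero' hk he h))

namespace Sext

variable (S : Sext)

theorem chi_back {k e m : O} (hk : Prim k) (hm : Adm m) (hkm : IsCoprime k m) (he : e ∈ D k) :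
    S.chi m (k ^ 4) * S.chi m e = conj (S.chi m (k * (k / e))) := by
  rw [mem_D hk.ne_zero] at he
  have h1 := eq_mul_div he.1.ne_zero he.2
  set f := k / e with hf
  have hfm : IsCoprime f m := hkm.of_isCoprime_of_dvd_left ⟨e, by rw [h1]; ring⟩
  have h2 : S.chi m f ^ 6 = 1 := by
    rw [← S.chi_pow hm, S.chi_pow_six hm, cop, if_pos hfm]
  rw [S.conj_eq m _ hm, S.chi_pow hm, h1, S.chi_mul _ _ _ hm, S.chi_mul _ _ _ hm,
    S.chi_mul _ _ _ hm]
  linear_combination (-(S.chi m e ^ 5 * S.chi m f ^ 4)) * h2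

theorem g_mul_conj {n : O} (hn : Sq n) : S.g n * conj (S.g n) = 1 := by
  rw [Complex.mul_conj, Complex.normSq_eq_norm_sq, S.norm_g n hn]; simp

/-- **Poisson summation backwards** for a pair with gcd `k`. -/
theorem back {k m1 m2 : O} (hk : Prim k) (h1 : Sq (k * m1)) (h2 : Sq (k * m2))
    (hc : IsCoprime m1 m2) {A : ℝ} (hA : 0 < A) :
    S.g (k * m1) * conj (S.g (k * m2)) * S.psum A (k * m2) (k * m1) =
      S.Esg m2 m1 * (mob m1 * mob m2) * ∑ e ∈ D k, mob e *
        (((A / N e / (Real.sqrt (N m1) * Real.sqrt (N m2)) : ℝ) : ℂ) *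
          ∑' u : O, (conj (S.chi m1 (vv k e u)) * S.chi m2 (vv k e u)) *
            ((Real.exp (-(b0 * A * N (vv k e u) / (N (k * m1) * N (k * m2)))) : ℝ) : ℂ)) := by
  have sk : Sq k := h1.left hk
  have s1 : Sq m1 := h1.of_mul_left hk
  have s2 : Sq m2 := h2.of_mul_left hk
  rw [S.psum_mul hA sk s2.1 s1.1, mul_sum, mul_sum]
  refine sum_congr rfl fun e he => ?_
  have he' := (mem_D hk.ne_zero).1 he
  have pe : (0 : ℝ) < N e := N_pos' he'.1.ne_zero
  have pk : (0 : ℝ) < N k := N_pos' hk.ne_zero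
  have p1 : (0 : ℝ) < N m1 := N_pos' s1.ne_zero
  have p2 : (0 : ℝ) < N m2 := N_pos' s2.ne_zero
  rw [S.psum_eq_Fd s2 s1 hc.symm (by positivity), Fd, cst, psum,
    S.g_mul k m1 sk s1 h1.coprime, S.g_mul k m2 sk s2 h2.coprime]
  have e1 : (∑' u : O, (conj (S.chi m1 (vv k e u)) * S.chi m2 (vv k e u)) *
      ((Real.exp (-(b0 * A * N (vv k e u) / (N (k * m1) * N (k * m2)))) : ℝ) : ℂ)) =
      (conj (S.chi m1 (k * (k / e))) * S.chi m2 (k * (k / e))) *
        ∑' x : O, (conj (S.chi m1 x) * S.chi m2 x) * (gw (N m2 * N m1 / (A / N e)) x : ℂ) := by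
    rw [← tsum_mul_left]
    refine tsum_congr fun u => ?_
    have e2 : Real.exp (-(b0 * A * N (vv k e u) / (N (k * m1) * N (k * m2)))) =
        gw (N m2 * N m1 / (A / N e)) u := by
      rw [gw]
      congr 2
      have e3 := N_vv he'.1.ne_zero he'.2 u
      have e4 : (N (vv k e u) : ℝ) = N u * (N k) ^ 2 / N e := by
        rw [eq_div_iff pe.ne']; exact e3
      rw [e4, N_mul', N_mul']
      field_simp
    rw [e2, vv, S.chi_mul _ u _ s1.1, S.chi_mul _ u _ s2.1, map_mul]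
    ring
  rw [e1, ← S.chi_back hk s1.1 h1.coprime he]
  have e5 : S.chi m2 (k * (k / e)) = conj (S.chi m2 (k ^ 4)) * conj (S.chi m2 e) := by
    rw [← map_mul, S.chi_back hk s2.1 h2.coprime he, Complex.conj_conj]
  rw [e5, mul_comm (Real.sqrt (N m2)) (Real.sqrt (N m1))]
  have g0 := S.g_mul_conj sk
  have g1 := S.g_mul_conj s1
  have g2 := S.g_mul_conj s2
  simp only [map_mul]
  set P := ∑' x : O, (conj (S.chi m1 x) * S.chi m2 x) * (gw (N m2 * N m1 / (A / N e)) x : ℂ)
  set R : ℂ := ((A / N e / (Real.sqrt (N m1) * Real.sqrt (N m2)) : ℝ) : ℂ)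
  set Q : ℂ := S.Esg m2 m1 * (mob m1 * mob m2) * (mob e * (R * (S.chi m1 (k ^ 4) * S.chi m1 e *
    (conj (S.chi m2 (k ^ 4)) * conj (S.chi m2 e)) * P))) with hQ
  calc _ = (S.g k * conj (S.g k)) * (S.g m1 * conj (S.g m1)) * (S.g m2 * conj (S.g m2)) * Q := by
        rw [hQ]; ring
    _ = Q := by rw [g0, g1, g2]; ring

end Sext

end Vale.Agent.P026Z.Poi
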