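import Vale.Agent.P026Z.Poi.StepA

/-!
P026, block POI: the three bounds used in the recursion step.
-/

namespace Vale.Agent.P026Z.Poi

open Vale.Agent.P006 Vale.Agent.P006.V1 Vale.Agent.P006.HB Finset

/-- the bound for the terms with a long common factor -/
def LargeB (S : Sext) (θ β : ℝ) : Prop :=
  ∀ W : ℝ → ℂ, IsWt W → ∀ b M : ℝ, 1 ≤ b → (∀ x, W x ≠ 0 → x ≤ b) → (∀ x, ‖W x‖ ≤ M) →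
    ∀ δ : ℝ, 0 < δ → ∃ (C : ℝ) (K : ℕ), 0 ≤ C ∧ ∀ κ : O → ℂ, Cls S.q κ →
      ∀ t D0 H Z : ℝ, 1 ≤ D0 → D0 ^ (1 + θ) ≤ H → 1 ≤ Z → Z ≤ D0 →
      ‖∑ k ∈ SO (b * D0), lam1 Z k * (S.LargeT (b * D0) H (aco κ W D0 t) k : ℂ)‖ ≤
        C * (1 + |t|) ^ K * (D0 * (D0 / Z) ^ β) * H ^ (1 + δ)

/-- the bound for the long terms -/
def LongB (S : Sext) (θ β : ℝ) : Prop :=
  ∀ W : ℝ → ℂ, IsWt W → ∀ b M : ℝ, 1 ≤ b → (∀ x, W x ≠ 0 → x ≤ b) → (∀ x, ‖W x‖ ≤ M) →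
    ∀ δ : ℝ, 0 < δ → ∃ (C : ℝ) (K : ℕ), 0 ≤ C ∧ ∀ κ : O → ℂ, Cls S.q κ →
      ∀ t D0 H Z : ℝ, 1 ≤ D0 → D0 ^ (1 + θ) ≤ H → 1 ≤ Z → ∀ g ∈ SO (b * D0), ∀ e ∈ D g,
      ‖∑ k ∈ SO (b * D0), psi2 Z k *
        S.LongT (b * D0) (H / N e) (fun m => aco κ W D0 t (g * m) * S.chi m e) k‖ ≤
        C * (1 + |t|) ^ K *
          (D0 ^ 2 * H ^ δ + (N g : ℝ)⁻¹ * (D0 * (D0 / Z) ^ β) * H ^ (1 + δ))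

/-- the bound for the short terms -/
def ShortB (S : Sext) (θ β : ℝ) : Prop :=
  ∀ W : ℝ → ℂ, IsWt W → ∀ b M : ℝ, 1 ≤ b → (∀ x, W x ≠ 0 → x ≤ b) → (∀ x, ‖W x‖ ≤ M) →
    ∀ δ : ℝ, 0 < δ → ∃ (C : ℝ) (K : ℕ), 0 ≤ C ∧ ∀ κ : O → ℂ, Cls S.q κ →
      ∀ t D0 H Z Z3 : ℝ, 1 ≤ D0 → D0 ^ (1 + θ) ≤ H → 1 ≤ Z → 1 ≤ Z3 → Z3 ^ 3 * Z ^ 2 ≤ D0 →
      ∀ g ∈ SO (b * D0), (N g : ℝ) ≤ Z → ∀ e ∈ D g, ∀ d ∈ SO (b * D0), (N d : ℝ) ≤ Z →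
      ‖S.ShortT (b * D0) (H / N e) (fun m => aco κ W D0 t (g * m) * S.chi m e) d‖ ≤
        C * (1 + |t|) ^ K * H ^ (1 + δ) *
          (Z ^ 15 * D0 ^ (1 - θ) + Z ^ 31 * Z3 ^ 3 * (D0 ^ (1 - θ)) ^ 2 / D0 +
            Z ^ 15 * D0 ^ (1 - θ) * (D0 / Z3 ^ 3) ^ (θ + β))

end Vale.Agent.P026Z.Poi
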