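import Vale.Agent.P026Z.Poi.Iface

/-!
P026, block POI: the sparse sum over the frequencies `u k (k/e) r`.
-/

namespace Vale.Agent.P026Z.Poi

open Vale.Agent.P006 Vale.Agent.P006.V1 Vale.Agent.P006.HB Finset
open scoped ComplexConjugate

/-- the number of dyadic blocks -/
theorem log_two_le {ε : ℝ} (hε : 0 < ε) :
    ∃ C : ℝ, 0 < C ∧ ∀ L : ℝ, 1 ≤ L → ∀ J : ℕ, (2 : ℝ) ^ J ≤ L → ((J + 1 : ℕ) : ℝ) ≤ C * L ^ ε := by
  have hl : 0 < Real.log 2 := Real.log_pos (by norm_num)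
  refine ⟨1 / (ε * Real.log 2) + 1, by positivity, fun L hL J hJ => ?_⟩
  have h3 : (J : ℝ) * Real.log 2 ≤ Real.log L := by
    rw [← Real.log_pow]
    exact Real.log_le_log (by positivity) hJ
  have h4 := Real.log_le_rpow_div (show 0 ≤ L by linarith) hε
  have h5 : 1 ≤ L ^ ε := Real.one_le_rpow hL hε.le
  have h6 : (J : ℝ) ≤ 1 / (ε * Real.log 2) * L ^ ε := by
    rw [one_div, inv_mul_eq_div, le_div_iff₀ (by positivity)]
    have h7 := h3.trans h4
    rw [le_div_iff₀ hε] at h7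
    linarith
  push_cast
  linarith

/-- uniformisation of lengths for the class sums -/
theorem unif_Acl (S : Sext) {W : ℝ → ℂ} (hW : IsWt W) : ∃ V : ℝ → ℂ, IsWt V ∧ ∀ K : ℕ,
    ∃ C : ℝ, 0 ≤ C ∧ ∀ (c0 : O) {ι : Type} (I : Finset ι) (c y : ι → ℝ) (v : ι → O) (X t G : ℝ),
      0 < X → (∀ i ∈ I, 0 ≤ c i) → (∀ i ∈ I, 1 ≤ y i ∧ y i ≤ 2) →
      (∀ τ : ℝ, ∑ i ∈ I, c i * S.Acl c0 V X τ (v i) ≤ G * (1 + |τ|) ^ K) →
      ∑ i ∈ I, c i * S.Acl c0 W (X / y i) t (v i) ≤ C * (G * (1 + |t|) ^ K) := by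
  obtain ⟨V, hV, h⟩ := unifU hW
  obtain ⟨a1, b1, M1, -, -, hb1, -, hs1, -⟩ := hW.bounds
  obtain ⟨a2, b2, M2, -, -, hb2, -, hs2, -⟩ := hV.bounds
  refine ⟨V, hV, fun K => ?_⟩
  obtain ⟨C, hC, h⟩ := h K
  refine ⟨C, hC, ?_⟩
  intro c0 ι I c y v X t G hX hc hy hG
  have key := h (I ×ˢ (univ : Finset (Rs S.q))) (SO ((b1 + b2) * X)) (fun p => c p.1)
    (fun p => y p.1) (fun p n => mob n * (cop n c0 * ind S.q p.2 n) * S.chi n (v p.1)) X t G hX
    (fun n hn => (mem_SO.1 hn).2.ne_zero) (fun p hp => hc _ (mem_product.1 hp).1)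
    (fun p hp => hy _ (mem_product.1 hp).1) fun τ => by
      refine le_trans (le_of_eq ?_) (hG τ)
      rw [sum_product]
      refine sum_congr rfl fun i _ => ?_
      rw [Sext.Acl, mul_sum]
      refine sum_congr rfl fun j _ => ?_
      rw [Sext.Ac, S.Sm_eq _ (fun x hx => (hs2 x hx).2) hX (L := (b1 + b2) * X) (by nlinarith)]
  refine le_trans (le_of_eq ?_) key
  rw [sum_product]
  refine sum_congr rfl fun i hi => ?_
  rw [Sext.Acl, mul_sum]
  refine sum_congr rfl fun j _ => ?_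
  have hy1 := (hy i hi).1
  have h1 : X / y i ≤ X := div_le_self hX.le hy1
  rw [Sext.Ac, S.Sm_eq _ (fun x hx => (hs1 x hx).2) (div_pos hX (by linarith))
    (L := (b1 + b2) * X) (by nlinarith)]

/-- the multiplicity of the map `(k, e, u) ↦ u k (k/e) r` -/
theorem sum_vv_le {ε : ℝ} (hε : 0 < ε) : ∃ C : ℝ, 0 ≤ C ∧ ∀ (L : ℝ) (T F : Finset O) (r : O)
    (f : O → ℝ) (G : ℝ), T ⊆ SO L → r ≠ 0 → (∀ u ∈ F, u ≠ 0) → (∀ v, 0 ≤ f v) →
    (∀ F' : Finset O, (∀ v ∈ F', v ≠ 0) → ∑ v ∈ F', (N v : ℝ) ^ ε * f v ≤ G) →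
    ∑ k ∈ T, ∑ e ∈ D k, ∑ u ∈ F, ((D k).card : ℝ) * f (vv k e u * r) ≤ C * G := by
  classical
  obtain ⟨C1, hC1, h1⟩ := card_D_le (ε := ε / 3) (by positivity)
  obtain ⟨C2, hC2, h2⟩ := card_SO_dvd_le (ε := ε / 3) (by positivity)
  refine ⟨C1 ^ 2 * C2, by positivity, fun L T F r f G hT hr hF hf hG => ?_⟩
  set F' : Finset O := T.biUnion fun k => (D k).biUnion fun e => F.image fun u => vv k e u * r
    with hF'
  have hne : ∀ v ∈ F', v ≠ 0 := by
    intro v hv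
    simp only [hF', mem_biUnion, mem_image] at hv
    obtain ⟨k, hk, e, he, u, hu, rfl⟩ := hv
    have hk0 := (mem_SO.1 (hT hk)).2.ne_zero
    rw [mem_D hk0] at he
    exact mul_ne_zero (vv_ne_zero hk0 he.1.ne_zero he.2 (hF u hu)) hr
  have hone : ∀ k ∈ T, ∀ e ∈ D k, ∑ u ∈ F, f (vv k e u * r) ≤
      ∑ v ∈ F', if k ∣ v then f v else 0 := by
    intro k hk e he
    have hk0 := (mem_SO.1 (hT hk)).2.ne_zero
    have he' := (mem_D hk0).1 he
    have hinj : ∀ x ∈ F, ∀ y ∈ F, vv k e x * r = vv k e y * r → x = y := by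
      intro x _ y _ hxy
      have h3 := mul_right_cancel₀ hr hxy
      exact mul_right_cancel₀ (mul_ne_zero hk0 (div_ne_zero' hk0 he'.1.ne_zero he'.2)) h3
    rw [← sum_image (s := F) (g := fun u => vv k e u * r) (f := f) hinj, ← sum_filter]
    refine sum_le_sum_of_subset_of_nonneg ?_ fun v _ _ => hf v
    intro v hv
    rw [mem_filter]
    refine ⟨mem_biUnion.2 ⟨k, hk, mem_biUnion.2 ⟨e, he, hv⟩⟩, ?_⟩
    obtain ⟨u, -, rfl⟩ := mem_image.1 hv
    exact (dvd_vv k e u).mul_right r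
  calc ∑ k ∈ T, ∑ e ∈ D k, ∑ u ∈ F, ((D k).card : ℝ) * f (vv k e u * r)
      ≤ ∑ k ∈ T, ∑ e ∈ D k, ((D k).card : ℝ) * ∑ v ∈ F', if k ∣ v then f v else 0 := by
        refine sum_le_sum fun k hk => sum_le_sum fun e he => ?_
        rw [← mul_sum]
        exact mul_le_mul_of_nonneg_left (hone k hk e he) (by positivity)
    _ = ∑ v ∈ F', ∑ k ∈ T.filter (fun k => k ∣ v), ((D k).card : ℝ) ^ 2 * f v := by
        simp only [sum_const, nsmul_eq_mul, mul_sum, sum_filter]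
        rw [sum_comm]
        refine sum_congr rfl fun v _ => sum_congr rfl fun k _ => ?_
        split_ifs
        · ring
        · simp
    _ ≤ ∑ v ∈ F', (C1 ^ 2 * C2) * ((N v : ℝ) ^ ε * f v) := by
        refine sum_le_sum fun v hv => ?_
        have hv0 := hne v hv
        have hNv := N_pos' hv0
        have h3 : ∀ k ∈ T.filter (fun k => k ∣ v),
            ((D k).card : ℝ) ^ 2 * f v ≤ (C1 * (N v : ℝ) ^ (ε / 3)) ^ 2 * f v := by
          intro k hk
          rw [mem_filter] at hk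
          have hk1 := (mem_SO.1 (hT hk.1)).2
          have h4 := h1 k hk1.prim hk1.2
          have h5 := N_le_of_dvd hv0 hk.2
          have h6 : ((D k).card : ℝ) ≤ C1 * (N v : ℝ) ^ (ε / 3) := h4.trans (by gcongr)
          have := hf v
          gcongr
        have h4 : ((T.filter (fun k => k ∣ v)).card : ℝ) ≤ C2 * (N v : ℝ) ^ (ε / 3) := by
          refine le_trans ?_ (h2 L v hv0)
          exact_mod_cast card_le_card (filter_subset_filter _ hT)
        have h5 : (N v : ℝ) ^ ε = (N v : ℝ) ^ (ε / 3) * ((N v : ℝ) ^ (ε / 3)) ^ 2 := by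
          rw [← pow_succ', ← Real.rpow_natCast, ← Real.rpow_mul hNv.le]
          congr 1; push_cast; ring
        have := hf v
        calc ∑ k ∈ T.filter (fun k => k ∣ v), ((D k).card : ℝ) ^ 2 * f v
            ≤ ((T.filter (fun k => k ∣ v)).card : ℝ) * ((C1 * (N v : ℝ) ^ (ε / 3)) ^ 2 * f v) := by
              rw [← nsmul_eq_mul]; exact sum_le_card_nsmul _ _ _ h3
          _ ≤ (C2 * (N v : ℝ) ^ (ε / 3)) * ((C1 * (N v : ℝ) ^ (ε / 3)) ^ 2 * f v) := by gcongr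
          _ = _ := by rw [h5]; ring
    _ ≤ _ := by
        rw [← mul_sum]
        exact mul_le_mul_of_nonneg_left (hG F' hne) (by positivity)

/-- the weighted sum over all frequencies -/
theorem tail_Acl (S : Sext) {θ β : ℝ} (hC : COP S θ β) {V : ℝ → ℂ} (hV : IsWt V) {ε : ℝ}
    (hε : 0 < ε) (hε1 : ε ≤ 1) : ∃ (C : ℝ) (K : ℕ), 0 ≤ C ∧ ∀ c0 : O, Sq c0 →
      ∀ τ X H : ℝ, 0 < X → 1 ≤ H → X ^ (1 + θ) ≤ H → ∀ F : Finset O, (∀ v ∈ F, v ≠ 0) →
        ∑ v ∈ F, (N v : ℝ) ^ ε * (om4 (N v / H) * S.Acl c0 V X τ v) ≤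
          C * ((D c0).card : ℝ) ^ 2 * X ^ (1 + β) * H ^ (1 + 2 * ε) * (1 + |τ|) ^ K := by
  obtain ⟨C, K, hC0, h⟩ := hC V hV ε hε
  refine ⟨17 * (N S.q * C), K, by positivity, fun c0 hc0 τ X H hX hH hXH F hF => ?_⟩
  have hH0 : 0 < H := by linarith
  have key := om4_sum_le (f := fun v => (N v : ℝ) ^ ε * S.Acl c0 V X τ v)
    (fun v => mul_nonneg (by positivity) (S.Acl_nonneg _ _ _ _ _)) hH0
    (G := N S.q * C * ((D c0).card : ℝ) ^ 2 * X ^ (1 + β) * H ^ (1 + 2 * ε) * (1 + |τ|) ^ K)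
    (fun y hy => ?_) F hF
  · refine le_trans (le_of_eq (sum_congr rfl fun v _ => by ring)) (key.trans (le_of_eq ?_))
    ring
  have hy0 : 0 < y := by linarith
  have h1 : ∑ v ∈ Hn y, S.Acl c0 V X τ v ≤
      N S.q * (C * (1 + |τ|) ^ K * ((D c0).card : ℝ) ^ 2 * X ^ (1 + β) * y ^ (1 + ε)) := by
    simp only [Sext.Acl]
    rw [sum_comm, ← fcard_Rs, ← card_univ, ← nsmul_eq_mul]
    exact sum_le_card_nsmul _ _ _ fun j _ =>
      h c0 hc0 _ (cls_ind S.q j) τ X y hX (hH.trans hy) (hXH.trans hy)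
  have h2 : y ^ ε * y ^ (1 + ε) ≤ H ^ (1 + 2 * ε) * (y / H) ^ 3 := by
    have h3 : 1 ≤ y / H := (one_le_div hH0).2 hy
    calc y ^ ε * y ^ (1 + ε) = (H * (y / H)) ^ (1 + 2 * ε) := by
          rw [← Real.rpow_add hy0, mul_div_cancel₀ _ hH0.ne']
          congr 1; ring
      _ = H ^ (1 + 2 * ε) * (y / H) ^ (1 + 2 * ε) := Real.mul_rpow hH0.le (by linarith)
      _ ≤ H ^ (1 + 2 * ε) * (y / H) ^ ((3 : ℕ) : ℝ) := by
          refine mul_le_mul_of_nonneg_left ?_ (by positivity)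
          exact Real.rpow_le_rpow_of_exponent_le h3 (by push_cast; linarith)
      _ = _ := by rw [Real.rpow_natCast]
  calc ∑ v ∈ Hn y, (N v : ℝ) ^ ε * S.Acl c0 V X τ v ≤ ∑ v ∈ Hn y, y ^ ε * S.Acl c0 V X τ v := by
        refine sum_le_sum fun v hv => mul_le_mul_of_nonneg_right ?_ (S.Acl_nonneg _ _ _ _ _)
        exact Real.rpow_le_rpow (by positivity) (mem_Hn.1 hv).1 hε.le
    _ ≤ y ^ ε * (N S.q *
        (C * (1 + |τ|) ^ K * ((D c0).card : ℝ) ^ 2 * X ^ (1 + β) * y ^ (1 + ε))) := by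
        rw [← mul_sum]
        exact mul_le_mul_of_nonneg_left h1 (by positivity)
    _ = N S.q * C * ((D c0).card : ℝ) ^ 2 * X ^ (1 + β) * (1 + |τ|) ^ K *
        (y ^ ε * y ^ (1 + ε)) := by ring
    _ ≤ N S.q * C * ((D c0).card : ℝ) ^ 2 * X ^ (1 + β) * (1 + |τ|) ^ K *
        (H ^ (1 + 2 * ε) * (y / H) ^ 3) := by gcongr
    _ = _ := by ring

/-- **the sparse sum** -/
theorem ss_of_cop (S : Sext) {θ β : ℝ} (h0 : 0 ≤ θ) (hb0 : 0 ≤ β) (hb1 : β ≤ 1) :
    COP S θ β → SS S θ β := by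
  classical
  intro hC W hW δ hδ
  set ε : ℝ := min (δ / 2) 1 with hεdef
  have hε : 0 < ε := lt_min (by positivity) one_pos
  have hε1 : ε ≤ 1 := min_le_right _ _
  have hε2 : 2 * ε ≤ δ := by have := min_le_left (δ / 2) 1; linarith
  obtain ⟨V, hV, hU⟩ := unif_Acl S hW
  obtain ⟨C1, K, hC1, h1⟩ := tail_Acl S hC hV hε hε1
  obtain ⟨C2, hC2, h2⟩ := hU K
  obtain ⟨C3, hC3, h3⟩ := sum_vv_le hε
  obtain ⟨C4, hC4, h4⟩ := log_two_le hδ
  refine ⟨C4 * (C2 * (4 * (C3 * C1))), K, by positivity,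
    fun c0 r hc0 hr t X H L K0 hX hH hXH hL hK0 F hF => ?_⟩
  set T := (SO L).filter (fun k => K0 ≤ N k) with hT
  set J := Nat.log 2 ⌊L⌋₊ with hJ
  have hJL : (2 : ℝ) ^ J ≤ L := by
    have h5 : 1 ≤ ⌊L⌋₊ := Nat.le_floor (by simpa using hL)
    have h6 : 2 ^ J ≤ ⌊L⌋₊ := Nat.pow_log_le_self 2 (by omega)
    calc (2 : ℝ) ^ J = ((2 ^ J : ℕ) : ℝ) := by push_cast; rfl
      _ ≤ (⌊L⌋₊ : ℝ) := by exact_mod_cast h6
      _ ≤ L := Nat.floor_le (by linarith)
  have hmaps : ∀ k ∈ T, Nat.log 2 (N k) ∈ range (J + 1) := by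
    intro k hk
    rw [mem_range, Nat.lt_succ_iff]
    exact Nat.log_mono_right (Nat.le_floor (mem_SO.1 (mem_filter.1 hk).1).1)
  set B : ℝ := C2 * (4 * (C3 * C1)) * (1 + |t|) ^ K * ((D c0).card : ℝ) ^ 2 *
    (X * (X / K0) ^ β) * H ^ (1 + δ) with hB
  have hB0 : 0 ≤ B := by positivity
  have hblock : ∀ j ∈ range (J + 1), ∑ k ∈ T with Nat.log 2 (N k) = j, ∑ e ∈ D k, ∑ u ∈ F,
      (((D k).card : ℝ) * N k) *
        (om4 (N (vv k e u * r) / H) * S.Acl c0 W (X / N k) t (vv k e u * r)) ≤ B := by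
    intro j _
    set Tj := T.filter (fun k => Nat.log 2 (N k) = j) with hTj
    rcases Tj.eq_empty_or_nonempty with hE | ⟨k0, hk0⟩
    · rw [hE, sum_empty]; exact hB0
    have hP : (0 : ℝ) < 2 ^ j := by positivity
    have hP1 : (1 : ℝ) ≤ 2 ^ j := one_le_pow₀ (by norm_num)
    have hrange : ∀ k ∈ Tj, (2 : ℝ) ^ j ≤ N k ∧ (N k : ℝ) ≤ 2 * 2 ^ j := by
      intro k hk
      rw [hTj, mem_filter] at hk
      have hk1 := (mem_SO.1 (mem_filter.1 hk.1).1).2.ne_zero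
      have a1 := Nat.pow_log_le_self 2 (N_pos hk1).ne'
      have a2 := Nat.lt_pow_succ_log_self (b := 2) (by norm_num) (N k)
      rw [hk.2] at a1 a2
      refine ⟨by exact_mod_cast a1, ?_⟩
      rw [← pow_succ']
      exact_mod_cast a2.le
    have hK0j : K0 ≤ 2 * 2 ^ j :=
      (mem_filter.1 (mem_filter.1 hk0).1).2.trans (hrange k0 hk0).2
    have hXj : 0 < X / 2 ^ j := by positivity
    have hXjH : (X / 2 ^ j) ^ (1 + θ) ≤ H :=
      (Real.rpow_le_rpow hXj.le (div_le_self hX.le hP1) (by linarith)).trans hXH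
    set G : ℝ := 2 * 2 ^ j * (C3 * (C1 * ((D c0).card : ℝ) ^ 2 * (X / 2 ^ j) ^ (1 + β) *
      H ^ (1 + 2 * ε))) with hG
    have key := h2 c0 (Tj.sigma fun k => D k ×ˢ F)
      (fun p => (((D p.1).card : ℝ) * N p.1) * om4 (N (vv p.1 p.2.1 p.2.2 * r) / H))
      (fun p => N p.1 / 2 ^ j) (fun p => vv p.1 p.2.1 p.2.2 * r) (X / 2 ^ j) t G hXj
      (fun p _ => mul_nonneg (by positivity) (om4_nonneg _))
      (fun p hp => by
        have := hrange _ (mem_sigma.1 hp).1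
        exact ⟨(one_le_div hP).2 this.1, (div_le_iff₀ hP).2 this.2⟩)
      fun τ => by
        have h5 := h3 L Tj F r (fun v => om4 (N v / H) * S.Acl c0 V (X / 2 ^ j) τ v) _
          ((filter_subset _ _).trans (filter_subset _ _)) hr hF
          (fun v => mul_nonneg (om4_nonneg _) (S.Acl_nonneg _ _ _ _ _))
          (h1 c0 hc0 τ (X / 2 ^ j) H hXj hH hXjH)
        rw [sum_sigma]
        calc _ ≤ ∑ k ∈ Tj, ∑ e ∈ D k, ∑ u ∈ F, (2 * 2 ^ j) * (((D k).card : ℝ) *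
              (om4 (N (vv k e u * r) / H) * S.Acl c0 V (X / 2 ^ j) τ (vv k e u * r))) := by
              refine sum_le_sum fun k hk => ?_
              rw [sum_product]
              refine sum_le_sum fun e _ => sum_le_sum fun u _ => ?_
              have a1 := (hrange k hk).2
              have a2 := mul_nonneg (om4_nonneg (N (vv k e u * r) / H))
                (S.Acl_nonneg c0 V (X / 2 ^ j) τ (vv k e u * r))
              calc _ = (N k : ℝ) * (((D k).card : ℝ) * (om4 (N (vv k e u * r) / H) *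
                    S.Acl c0 V (X / 2 ^ j) τ (vv k e u * r))) := by simp only; ring
                _ ≤ _ := by gcongr
          _ ≤ (2 * 2 ^ j) * (C3 * (C1 * ((D c0).card : ℝ) ^ 2 * (X / 2 ^ j) ^ (1 + β) *
              H ^ (1 + 2 * ε) * (1 + |τ|) ^ K)) := by
              simp only [← mul_sum] at h5 ⊢
              exact mul_le_mul_of_nonneg_left h5 (by positivity)
          _ = _ := by rw [hG]; ring
    have h6 : 2 * 2 ^ j * (X / 2 ^ j) ^ (1 + β) ≤ 4 * (X * (X / K0) ^ β) := by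
      have a1 : X / 2 ^ j ≤ 2 * (X / K0) := by
        rw [← mul_div_assoc, div_le_div_iff₀ hP hK0]
        nlinarith
      have a2 : (X / 2 ^ j) ^ β ≤ 2 * (X / K0) ^ β := by
        calc (X / 2 ^ j) ^ β ≤ (2 * (X / K0)) ^ β := Real.rpow_le_rpow hXj.le a1 hb0
          _ = 2 ^ β * (X / K0) ^ β := Real.mul_rpow (by norm_num) (by positivity)
          _ ≤ 2 ^ (1 : ℝ) * (X / K0) ^ β := by
              refine mul_le_mul_of_nonneg_right ?_ (by positivity)
              exact Real.rpow_le_rpow_of_exponent_le (by norm_num) hb1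
          _ = _ := by rw [Real.rpow_one]
      rw [Real.rpow_add hXj, Real.rpow_one]
      calc 2 * 2 ^ j * (X / 2 ^ j * (X / 2 ^ j) ^ β) = 2 * X * (X / 2 ^ j) ^ β := by field_simp
        _ ≤ 2 * X * (2 * (X / K0) ^ β) := by gcongr
        _ = _ := by ring
    have h7 : H ^ (1 + 2 * ε) ≤ H ^ (1 + δ) := Real.rpow_le_rpow_of_exponent_le hH (by linarith)
    rw [sum_sigma] at key
    calc _ = _ := by
          refine sum_congr rfl fun k hk => ?_
          rw [sum_product]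
          refine sum_congr rfl fun e _ => sum_congr rfl fun u _ => ?_
          have a1 : X / 2 ^ j / (N k / 2 ^ j) = X / N k := by field_simp
          simp only [a1]
          ring
      _ ≤ _ := key
      _ = C2 * (C3 * C1) * (1 + |t|) ^ K * ((D c0).card : ℝ) ^ 2 *
          (2 * 2 ^ j * (X / 2 ^ j) ^ (1 + β)) * H ^ (1 + 2 * ε) := by rw [hG]; ring
      _ ≤ C2 * (C3 * C1) * (1 + |t|) ^ K * ((D c0).card : ℝ) ^ 2 *
          (4 * (X * (X / K0) ^ β)) * H ^ (1 + δ) := by gcongr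
      _ = B := by rw [hB]; ring
  rw [← sum_fiberwise_of_maps_to hmaps]
  calc _ ≤ ((J + 1 : ℕ) : ℝ) * B := by
        have := sum_le_card_nsmul _ _ _ hblock
        rwa [card_range, nsmul_eq_mul] at this
    _ ≤ (C4 * L ^ δ) * B := mul_le_mul_of_nonneg_right (h4 L hL J hJL) hB0
    _ = _ := by rw [hB]; ring

end Vale.Agent.P026Z.Poi
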