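import Vale.Agent.P026Z.Poi.Defs
import Mathlib.Analysis.MellinInversion
import Mathlib.Analysis.SpecialFunctions.Gamma.Deriv
import Mathlib.Analysis.Distribution.SchwartzSpace.Fourier
import Mathlib.Analysis.Calculus.BumpFunction.Normed
import Mathlib.Analysis.Calculus.BumpFunction.InnerProduct
import Mathlib.Analysis.SpecialFunctions.ImproperIntegrals

/-!
P026, block POI: Mellin representations of `exp (-x)` and of the weights; operations on weights.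
-/

namespace Vale.Agent.P026Z.Poi

open MeasureTheory Complex
open scoped ComplexConjugate ContDiff FourierTransform Real SchwartzMap

/-- continuous and rapidly decreasing -/
def Rapid (ρ : ℝ → ℂ) : Prop :=
  Continuous ρ ∧ ∀ K : ℕ, ∃ C : ℝ, ∀ τ : ℝ, ‖ρ τ‖ * (1 + |τ|) ^ K ≤ C

theorem Rapid.integrable_mul {ρ : ℝ → ℂ} (h : Rapid ρ) (K : ℕ) :
    Integrable fun τ : ℝ => ‖ρ τ‖ * (1 + |τ|) ^ K := by
  obtain ⟨C, hC⟩ := h.2 (K + 2)
  have hc : Continuous fun τ : ℝ => ‖ρ τ‖ * (1 + |τ|) ^ K := by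
    have := h.1
    fun_prop
  refine (integrable_inv_one_add_sq.const_mul C).mono' hc.aestronglyMeasurable
    (Filter.Eventually.of_forall fun τ => ?_)
  rw [Real.norm_of_nonneg (by positivity), ← div_eq_mul_inv, le_div_iff₀ (by positivity)]
  refine le_trans ?_ (hC τ)
  have h1 : 1 + τ ^ 2 ≤ (1 + |τ|) ^ 2 := by
    rw [← sq_abs τ]; nlinarith [abs_nonneg τ]
  calc ‖ρ τ‖ * (1 + |τ|) ^ K * (1 + τ ^ 2) ≤ ‖ρ τ‖ * (1 + |τ|) ^ K * (1 + |τ|) ^ 2 := by gcongr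
    _ = _ := by ring

theorem Rapid.integrable {ρ : ℝ → ℂ} (h : Rapid ρ) : Integrable ρ := by
  have h1 := h.integrable_mul 0
  simp only [pow_zero, mul_one] at h1
  exact (integrable_norm_iff h.1.aestronglyMeasurable).1 h1

/-- a rapidly decreasing function times a bounded continuous function is integrable -/
theorem Rapid.integrable_mul_bdd {ρ φ : ℝ → ℂ} (h : Rapid ρ) (hφ : Continuous φ) {M : ℝ}
    (hM : ∀ τ, ‖φ τ‖ ≤ M) : Integrable fun τ => ρ τ * φ τ := by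
  refine (h.integrable.norm.mul_const M).mono' (h.1.mul hφ).aestronglyMeasurable
    (Filter.Eventually.of_forall fun τ => ?_)
  rw [norm_mul]
  exact mul_le_mul_of_nonneg_left (hM τ) (norm_nonneg _)

theorem one_add_pow_le (x : ℝ) (hx : 0 ≤ x) (K : ℕ) : (1 + x) ^ K ≤ 2 ^ K * (1 + x ^ K) := by
  rcases le_total x 1 with h | h
  · calc (1 + x) ^ K ≤ 2 ^ K := by gcongr; linarith
      _ ≤ 2 ^ K * (1 + x ^ K) := by
        have : 0 ≤ x ^ K := by positivity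
        have h2 : (0 : ℝ) < 2 ^ K := by positivity
        nlinarith
  · calc (1 + x) ^ K ≤ (2 * x) ^ K := by gcongr; linarith
      _ = 2 ^ K * x ^ K := mul_pow _ _ _
      _ ≤ 2 ^ K * (1 + x ^ K) := by gcongr; linarith

/-! ### the Gamma function on vertical lines -/

theorem norm_Gamma_le {s : ℂ} (hs : 0 < s.re) : ‖Gamma s‖ ≤ Real.Gamma s.re := by
  rw [Complex.Gamma_eq_integral hs, Real.Gamma_eq_integral hs, GammaIntegral]
  refine (norm_integral_le_integral_norm _).trans (le_of_eq ?_)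
  refine setIntegral_congr_fun measurableSet_Ioi fun x hx => ?_
  rw [norm_mul, Complex.norm_real, Real.norm_of_nonneg (Real.exp_pos _).le,
    norm_cpow_eq_rpow_re_of_pos hx]
  simp

theorem norm_Gamma_mul_pow_le (K : ℕ) : ∀ {σ : ℝ}, 0 < σ → ∀ τ : ℝ,
    ‖Gamma (σ + τ * I)‖ * |τ| ^ K ≤ Real.Gamma (σ + K) := by
  induction K with
  | zero =>
    intro σ hσ τ
    have := norm_Gamma_le (s := σ + τ * I) (by simpa using hσ)
    simpa using this
  | succ K ih =>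
    intro σ hσ τ
    have h0 : (σ + τ * I : ℂ) ≠ 0 := by
      intro h
      have := congrArg Complex.re h
      simp at this
      linarith
    have h1 := Complex.Gamma_add_one _ h0
    have h2 := ih (σ := σ + 1) (by linarith) τ
    have h3 : ((σ + 1 : ℝ) : ℂ) + τ * I = σ + τ * I + 1 := by push_cast; ring
    rw [h3, h1, norm_mul] at h2
    have h4 : |τ| ≤ ‖(σ + τ * I : ℂ)‖ := by
      have := Complex.abs_im_le_norm (σ + τ * I : ℂ)
      simpa using this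
    have h5 : σ + ((K + 1 : ℕ) : ℝ) = σ + 1 + K := by push_cast; ring
    rw [h5]
    refine le_trans ?_ h2
    rw [pow_succ]
    calc ‖Gamma (σ + τ * I)‖ * (|τ| ^ K * |τ|) ≤
        ‖Gamma (σ + τ * I)‖ * (|τ| ^ K * ‖(σ + τ * I : ℂ)‖) := by gcongr
      _ = _ := by ring

theorem rapid_Gamma {σ : ℝ} (hσ : 0 < σ) : Rapid fun τ : ℝ => Gamma (σ + τ * I) := by
  refine ⟨?_, fun K => ⟨2 ^ K * (Real.Gamma σ + Real.Gamma (σ + K)), fun τ => ?_⟩⟩
  · rw [continuous_iff_continuousAt]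
    intro τ
    have h1 : ContinuousAt Gamma (σ + τ * I) := by
      refine (Complex.differentiableAt_Gamma _ fun m => ?_).continuousAt
      intro h
      have := congrArg Complex.re h
      simp at this
      have h2 : (0 : ℝ) ≤ m := Nat.cast_nonneg m
      linarith
    exact ContinuousAt.comp (f := fun τ : ℝ => (σ + τ * I : ℂ)) h1 (by fun_prop)
  · have h1 := norm_Gamma_mul_pow_le 0 hσ τ
    have h2 := norm_Gamma_mul_pow_le K hσ τ
    simp only [pow_zero, mul_one, Nat.cast_zero, add_zero] at h1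
    calc ‖Gamma (σ + τ * I)‖ * (1 + |τ|) ^ K ≤ ‖Gamma (σ + τ * I)‖ * (2 ^ K * (1 + |τ| ^ K)) := by
          gcongr; exact one_add_pow_le _ (abs_nonneg τ) K
      _ = 2 ^ K * (‖Gamma (σ + τ * I)‖ + ‖Gamma (σ + τ * I)‖ * |τ| ^ K) := by ring
      _ ≤ _ := by gcongr

theorem Rapid.const_mul {ρ : ℝ → ℂ} (h : Rapid ρ) (c : ℂ) : Rapid fun τ => c * ρ τ := by
  refine ⟨continuous_const.mul h.1, fun K => ?_⟩
  obtain ⟨C, hC⟩ := h.2 K
  refine ⟨‖c‖ * C, fun τ => ?_⟩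
  rw [norm_mul, mul_assoc]
  exact mul_le_mul_of_nonneg_left (hC τ) (norm_nonneg _)

/-- `exp (-x) = ∫ ρ(τ) x^{-(σ+iτ)} dτ` -/
theorem mellin_exp {σ : ℝ} (hσ : 0 < σ) : ∃ ρ : ℝ → ℂ, Rapid ρ ∧ ∀ x : ℝ, 0 < x →
    ((Real.exp (-x) : ℝ) : ℂ) = ∫ τ : ℝ, ρ τ * (x : ℂ) ^ (-((σ : ℂ) + τ * I)) := by
  refine ⟨fun τ => (1 / (2 * π) : ℝ) * Gamma (σ + τ * I), (rapid_Gamma hσ).const_mul _,
    fun x hx => ?_⟩
  have hm : ∀ τ : ℝ, mellin (fun x : ℝ => ((Real.exp (-x) : ℝ) : ℂ)) (σ + τ * I) =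
      Gamma (σ + τ * I) := by
    intro τ
    rw [← Complex.GammaIntegral_eq_mellin, Complex.Gamma_eq_integral (by simpa using hσ)]
  have h1 : MellinConvergent (fun x : ℝ => ((Real.exp (-x) : ℝ) : ℂ)) σ := by
    have := Complex.GammaIntegral_convergent (s := σ) (by simpa using hσ)
    rw [MellinConvergent]
    refine this.congr_fun (fun t _ => ?_) measurableSet_Ioi
    simp only [smul_eq_mul]
    ring
  have h2 : VerticalIntegrable (mellin (fun x : ℝ => ((Real.exp (-x) : ℝ) : ℂ))) σ := by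
    rw [VerticalIntegrable]
    simp only [hm]
    exact (rapid_Gamma hσ).integrable
  have h3 := mellinInv_mellin_eq σ _ hx h1 h2 (by fun_prop)
  rw [← h3, mellinInv, Complex.real_smul, ← integral_const_mul]
  refine integral_congr_ae (Filter.Eventually.of_forall fun τ => ?_)
  simp only [hm, smul_eq_mul]
  ring

/-! ### weights -/

theorem rapid_schwartz (f : 𝓢(ℝ, ℂ)) : Rapid f := by
  refine ⟨f.continuous, fun K => ?_⟩
  obtain ⟨C0, -, h0⟩ := f.decay 0 0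
  obtain ⟨C1, -, h1⟩ := f.decay K 0
  refine ⟨2 ^ K * (C0 + C1), fun τ => ?_⟩
  have a0 := h0 τ
  have a1 := h1 τ
  simp only [norm_iteratedFDeriv_zero, pow_zero, one_mul, Real.norm_eq_abs] at a0 a1
  calc ‖f τ‖ * (1 + |τ|) ^ K ≤ ‖f τ‖ * (2 ^ K * (1 + |τ| ^ K)) := by
        gcongr; exact one_add_pow_le _ (abs_nonneg τ) K
    _ = 2 ^ K * (‖f τ‖ + |τ| ^ K * ‖f τ‖) := by ring
    _ ≤ _ := by gcongr

theorem Rapid.comp_div {ρ : ℝ → ℂ} (h : Rapid ρ) {c : ℝ} (hc : 1 ≤ c) :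
    Rapid fun τ => ρ (τ / c) := by
  refine ⟨h.1.comp (by fun_prop), fun K => ?_⟩
  obtain ⟨C, hC⟩ := h.2 K
  refine ⟨C * c ^ K, fun τ => ?_⟩
  have h1 : 1 + |τ| ≤ (1 + |τ / c|) * c := by
    rw [abs_div, abs_of_pos (by linarith : 0 < c), add_mul, div_mul_cancel₀ _ (by linarith)]
    linarith
  calc ‖ρ (τ / c)‖ * (1 + |τ|) ^ K ≤ ‖ρ (τ / c)‖ * ((1 + |τ / c|) * c) ^ K := by gcongr
    _ = ‖ρ (τ / c)‖ * (1 + |τ / c|) ^ K * c ^ K := by rw [mul_pow]; ring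
    _ ≤ C * c ^ K := by gcongr; exact hC _

/-- `W(x) = ∫ ρ(τ) x^{iτ} dτ` -/
theorem mellin_wt {W : ℝ → ℂ} (hW : IsWt W) : ∃ ρ : ℝ → ℂ, Rapid ρ ∧ ∀ x : ℝ, 0 < x →
    W x = ∫ τ : ℝ, ρ τ * (x : ℂ) ^ ((τ : ℂ) * I) := by
  obtain ⟨hs, a, b, ha, hab⟩ := hW
  set f : ℝ → ℂ := fun L => W (Real.exp L) with hf
  have hfs : ContDiff ℝ ∞ f := hs.comp Real.contDiff_exp
  have hfc : HasCompactSupport f := by
    refine HasCompactSupport.intro (K := Set.Icc (Real.log a) (Real.log b)) isCompact_Icc ?_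
    intro L hL
    by_contra h
    obtain ⟨h1, h2⟩ := hab _ h
    apply hL
    constructor
    · rw [Real.log_le_iff_le_exp ha]; exact h1
    · rw [Real.le_log_iff_exp_le (lt_of_lt_of_le (Real.exp_pos L) h2)]; exact h2
  set φ : 𝓢(ℝ, ℂ) := hfc.toSchwartzMap hfs with hφ
  have h2π : (1 : ℝ) ≤ 2 * π := by linarith [Real.two_le_pi]
  refine ⟨fun τ => (1 / (2 * π) : ℝ) * (𝓕 φ : 𝓢(ℝ, ℂ)) (τ / (2 * π)),
    ((rapid_schwartz (𝓕 φ)).comp_div h2π).const_mul _, fun x hx => ?_⟩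
  have hinv : f = 𝓕⁻ (𝓕 f) :=
    (hfs.continuous.fourierInv_fourier_eq φ.integrable (𝓕 φ : 𝓢(ℝ, ℂ)).integrable).symm
  have h1 : W x = f (Real.log x) := by rw [hf]; simp only; rw [Real.exp_log hx]
  rw [h1, hinv, Real.fourierInv_eq']
  have h3 := Measure.integral_comp_div (fun ξ : ℝ =>
    cexp ((2 * π * inner ℝ ξ (Real.log x) : ℝ) * I) • 𝓕 f ξ) (2 * π)
  have hπ : (0 : ℝ) < 2 * π := by positivity
  rw [abs_of_pos hπ] at h3
  have h4 : (∫ ξ : ℝ, cexp ((2 * π * inner ℝ ξ (Real.log x) : ℝ) * I) • 𝓕 f ξ) =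
      ((1 / (2 * π) : ℝ) : ℂ) * ∫ τ : ℝ, cexp ((2 * π * inner ℝ (τ / (2 * π)) (Real.log x) : ℝ) * I)
        • 𝓕 f (τ / (2 * π)) := by
    rw [h3, Complex.real_smul, ← mul_assoc, ← Complex.ofReal_mul, one_div_mul_cancel hπ.ne']
    simp
  rw [h4, ← integral_const_mul]
  refine integral_congr_ae (Filter.Eventually.of_forall fun τ => ?_)
  simp only [smul_eq_mul]
  have hx' : (x : ℂ) ≠ 0 := by exact_mod_cast hx.ne'
  have e1 : cexp ((2 * π * inner ℝ (τ / (2 * π)) (Real.log x) : ℝ) * I) =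
      (x : ℂ) ^ ((τ : ℂ) * I) := by
    rw [Complex.cpow_def_of_ne_zero hx', ← Complex.ofReal_log hx.le]
    congr 1
    have : (2 * π * inner ℝ (τ / (2 * π)) (Real.log x) : ℝ) = Real.log x * τ := by
      rw [show inner ℝ (τ / (2 * π)) (Real.log x) = Real.log x * (τ / (2 * π)) by simp]
      field_simp
    rw [this]; push_cast; ring
  rw [e1]
  have e2 : (𝓕 φ : 𝓢(ℝ, ℂ)) (τ / (2 * π)) = 𝓕 f (τ / (2 * π)) := rfl
  rw [e2]; ring

theorem IsWt.bounds {W : ℝ → ℂ} (hW : IsWt W) : ∃ a b M : ℝ, 0 < a ∧ a < b ∧ 1 ≤ b ∧ 0 ≤ M ∧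
    (∀ x, W x ≠ 0 → a ≤ x ∧ x ≤ b) ∧ ∀ x, ‖W x‖ ≤ M := by
  obtain ⟨hs, a, b, ha, hab⟩ := hW
  obtain ⟨M, hM⟩ := (isCompact_Icc (a := a) (b := b)).exists_bound_of_continuousOn
    hs.continuous.continuousOn
  refine ⟨a, max (max b (a + 1)) 1, max M 0, ha, ?_, le_max_right _ _, le_max_right _ _, ?_, ?_⟩
  · exact lt_of_lt_of_le (by linarith) ((le_max_right _ _).trans (le_max_left _ _))
  · intro x hx
    exact ⟨(hab x hx).1, (hab x hx).2.trans ((le_max_left _ _).trans (le_max_left _ _))⟩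
  · intro x
    by_cases hx : W x = 0
    · rw [hx, norm_zero]; exact le_max_right _ _
    · exact (hM x (hab x hx)).trans (le_max_left _ _)

theorem IsWt.conj {W : ℝ → ℂ} (hW : IsWt W) : IsWt fun x => conj (W x) := by
  obtain ⟨hs, a, b, ha, hab⟩ := hW
  refine ⟨Complex.conjCLE.contDiff.comp hs, a, b, ha, fun x hx => hab x ?_⟩
  intro h; apply hx; simp [h]

theorem IsWt.mul_rpow {W : ℝ → ℂ} (hW : IsWt W) (σ : ℝ) :
    IsWt fun x => W x * ((x ^ σ : ℝ) : ℂ) := by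
  obtain ⟨hs, a, b, ha, hab⟩ := hW
  refine ⟨?_, a, b, ha, fun x hx => hab x (left_ne_zero_of_mul hx)⟩
  rw [contDiff_iff_contDiffAt]
  intro x
  by_cases hx : x < a
  · have h0 : (fun x => W x * ((x ^ σ : ℝ) : ℂ)) =ᶠ[nhds x] fun _ => 0 := by
      filter_upwards [Iio_mem_nhds hx] with y hy
      have : W y = 0 := by
        by_contra h
        exact absurd (hab y h).1 (not_le.2 hy)
      simp [this]
    exact contDiffAt_const.congr_of_eventuallyEq h0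
  · have hx0 : x ≠ 0 := by push Not at hx; linarith
    exact hs.contDiffAt.mul (Complex.ofRealCLM.contDiff.contDiffAt.comp x
      (Real.contDiffAt_rpow_const_of_ne hx0))

/-- a weight equal to `1` on a given compact interval of `(0, ∞)` -/
theorem exists_wt_one {a b : ℝ} (ha : 0 < a) (hab : a < b) :
    ∃ V : ℝ → ℂ, IsWt V ∧ ∀ x, a ≤ x → x ≤ b → V x = 1 := by
  let φ : ContDiffBump ((a + b) / 2) := ⟨(b - a) / 2, (b - a) / 2 + a / 2, by linarith, by linarith⟩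
  refine ⟨fun x => (φ x : ℂ), ⟨Complex.ofRealCLM.contDiff.comp φ.contDiff, a / 2, b + a / 2,
    by linarith, fun x hx => ?_⟩, fun x h1 h2 => ?_⟩
  · have h1 : x ∈ Function.support φ := by
      intro h; apply hx; simp [h]
    rw [φ.support_eq, Metric.mem_ball, Real.dist_eq, abs_lt] at h1
    have e : φ.rOut = (b - a) / 2 + a / 2 := rfl
    rw [e] at h1
    constructor <;> linarith [h1.1, h1.2]
  · have : φ x = 1 := by
      apply φ.one_of_mem_closedBall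
      rw [Metric.mem_closedBall, Real.dist_eq, abs_le]
      have e : φ.rIn = (b - a) / 2 := rfl
      rw [e]
      constructor <;> linarith
    simp [this]

theorem norm_cpow_I {x : ℝ} (hx : 0 < x) (t : ℝ) : ‖(x : ℂ) ^ ((t : ℂ) * I)‖ = 1 := by
  rw [norm_cpow_eq_rpow_re_of_pos hx]; simp

theorem norm_wt {W : ℝ → ℂ} {x : ℝ} (hx : 0 < x) (t : ℝ) : ‖wt W t x‖ = ‖W x‖ := by
  rw [wt, norm_mul, norm_cpow_I hx, mul_one]

theorem conj_cpow_pos {x : ℝ} (hx : 0 < x) (w : ℂ) :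
    conj ((x : ℂ) ^ w) = (x : ℂ) ^ (conj w) := by
  rw [cpow_conj _ _ (by rw [arg_ofReal_of_nonneg hx.le]; exact Real.pi_ne_zero.symm), conj_ofReal]

theorem conj_wt (W : ℝ → ℂ) {x : ℝ} (hx : 0 < x) (t : ℝ) :
    conj (wt W t x) = wt (fun y => conj (W y)) (-t) x := by
  rw [wt, wt, map_mul, conj_cpow_pos hx]
  congr 2
  simp

/-- multiplying the twisted weight by a complex power -/
theorem wt_mul_cpow (W : ℝ → ℂ) {x : ℝ} (hx : 0 < x) (t σ τ : ℝ) :
    wt W t x * (x : ℂ) ^ ((σ : ℂ) + τ * I) = wt (fun y => W y * ((y ^ σ : ℝ) : ℂ)) (t + τ) x := by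
  have hx' : (x : ℂ) ≠ 0 := by exact_mod_cast hx.ne'
  rw [wt, wt, Complex.ofReal_cpow hx.le, cpow_add _ _ hx', ofReal_add, add_mul,
    cpow_add _ _ hx']
  ring

/-- uniformisation of the length: `W(xy)(xy)^{it}` for `y ∈ [1,2]` -/
theorem exists_unif {W : ℝ → ℂ} (hW : IsWt W) : ∃ (V : ℝ → ℂ) (ρ : ℝ → ℂ), IsWt V ∧ Rapid ρ ∧
    ∀ t x y : ℝ, 0 < x → 1 ≤ y → y ≤ 2 →
      wt W t (x * y) = ∫ τ : ℝ, ρ τ * ((y : ℂ) ^ (((t + τ : ℝ) : ℂ) * I) * wt V (t + τ) x) := by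
  obtain ⟨a, b, M, ha, hab, -, -, hsupp, -⟩ := hW.bounds
  obtain ⟨V, hV, hV1⟩ := exists_wt_one (a := a / 2) (b := b) (by linarith) (by linarith)
  obtain ⟨ρ, hρ, hrep⟩ := mellin_wt hW
  refine ⟨V, ρ, hV, hρ, fun t x y hx hy1 hy2 => ?_⟩
  have hy : 0 < y := by linarith
  have hxy : 0 < x * y := mul_pos hx hy
  have h1 : W (x * y) = V x * W (x * y) := by
    by_cases h : W (x * y) = 0
    · simp [h]
    · obtain ⟨h2, h3⟩ := hsupp _ h
      rw [hV1 x (by nlinarith) (by nlinarith), one_mul]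
  rw [wt, h1, hrep _ hxy, ← integral_const_mul, ← integral_mul_const]
  refine integral_congr_ae (Filter.Eventually.of_forall fun τ => ?_)
  have hxy' : ((x * y : ℝ) : ℂ) ≠ 0 := by exact_mod_cast hxy.ne'
  simp only [wt]
  have e1 : ((x * y : ℝ) : ℂ) ^ ((τ : ℂ) * I) * ((x * y : ℝ) : ℂ) ^ ((t : ℂ) * I) =
      (y : ℂ) ^ (((t + τ : ℝ) : ℂ) * I) * (x : ℂ) ^ (((t + τ : ℝ) : ℂ) * I) := by
    rw [← cpow_add _ _ hxy', ofReal_mul, mul_cpow_ofReal_nonneg hx.le hy.le, mul_comm]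
    congr 2 <;> (push_cast; ring)
  linear_combination (V x * ρ τ) * e1

end Vale.Agent.P026Z.Poi
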