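import Vale.Agent.P026Z.Poi.Basic
import Vale.Agent.P026Z.Poi.Mellin
import Mathlib.Algebra.QuadraticDiscriminant
import Mathlib.Analysis.Complex.ExponentialBounds

/-!
P026, block POI: splitting into residue classes, separation of variables, uniformisation of
lengths, dyadic tails.
-/

namespace Vale.Agent.P026Z.Poi

open Vale.Agent.P006 Vale.Agent.P006.V1 Vale.Agent.P006.HB Finset MeasureTheory Complex
open scoped ComplexConjugate

/-! ### residue classes -/

open Classical in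
/-- indicator of a residue class -/
noncomputable def ind (q : O) (j : Rs q) (n : O) : ℂ := if rs q n = j then 1 else 0

theorem cls_ind (q : O) (j : Rs q) : Cls q (ind q j) := by
  refine ⟨fun x y h => ?_, fun x => ?_⟩
  · have h1 : rs q x = rs q y := rs_eq.2 h
    rw [ind, ind, h1]
  · rw [ind]; split_ifs <;> simp

theorem conj_ind (q : O) (j : Rs q) (n : O) : conj (ind q j n) = ind q j n := by
  rw [ind]; split_ifs <;> simp

theorem Cls.comp_mul {q : O} {κ : O → ℂ} (h : Cls q κ) (c : O) : Cls q fun n => κ (c * n) :=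
  ⟨h.1.comp_mul c, fun _ => h.2 _⟩

/-- the sum of the squares of the class sums -/
noncomputable def cl (q : O) [NeZero q] (T : Finset O) (x : O → ℂ) : ℝ :=
  ∑ j : Rs q, ‖∑ n ∈ T, ind q j n * x n‖ ^ 2

theorem cl_nonneg (q : O) [NeZero q] (T : Finset O) (x : O → ℂ) : 0 ≤ cl q T x :=
  sum_nonneg fun _ _ => by positivity

theorem cl_congr {q : O} [NeZero q] {T : Finset O} {x y : O → ℂ} (h : ∀ n ∈ T, x n = y n) :
    cl q T x = cl q T y := by
  unfold cl
  refine sum_congr rfl fun j _ => ?_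
  rw [sum_congr rfl fun n hn => by rw [h n hn]]

theorem cl_const_mul {q : O} [NeZero q] (T : Finset O) (c : ℂ) (x : O → ℂ) :
    cl q T (fun n => c * x n) = ‖c‖ ^ 2 * cl q T x := by
  unfold cl
  rw [mul_sum]
  refine sum_congr rfl fun j _ => ?_
  rw [← mul_pow, ← norm_mul, mul_sum]
  congr 2
  exact sum_congr rfl fun n _ => by ring

theorem cl_const_mul_le {q : O} [NeZero q] (T : Finset O) {c : ℂ} (hc : ‖c‖ ≤ 1) (x : O → ℂ) :
    cl q T (fun n => c * x n) ≤ cl q T x := by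
  rw [cl_const_mul]
  exact mul_le_of_le_one_left (cl_nonneg _ _ _) (pow_le_one₀ (norm_nonneg _) hc)

theorem cl_conj {q : O} [NeZero q] (T : Finset O) (x : O → ℂ) :
    cl q T (fun n => conj (x n)) = cl q T x := by
  unfold cl
  refine sum_congr rfl fun j _ => ?_
  rw [← Complex.norm_conj (∑ n ∈ T, ind q j n * x n), map_sum]
  congr 2
  exact sum_congr rfl fun n _ => by rw [map_mul, conj_ind]

/-- periodic in both variables and bounded by `1` -/
def Bi (q : O) (E : O → O → ℂ) : Prop :=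
  (∀ b, Per q fun a => E a b) ∧ (∀ a, Per q (E a)) ∧ ∀ a b, ‖E a b‖ ≤ 1

theorem Bi.mul {q : O} {E F : O → O → ℂ} (hE : Bi q E) (hF : Bi q F) :
    Bi q fun a b => E a b * F a b :=
  ⟨fun b => (hE.1 b).mul (hF.1 b), fun a => (hE.2.1 a).mul (hF.2.1 a), fun a b => by
    rw [norm_mul]; exact mul_le_one₀ (hE.2.2 a b) (norm_nonneg _) (hF.2.2 a b)⟩

theorem Bi.comp_mul {q : O} {E : O → O → ℂ} (hE : Bi q E) (c d : O) :
    Bi q fun a b => E (c * a) (d * b) :=
  ⟨fun b => (hE.1 (d * b)).comp_mul c, fun a => (hE.2.1 (c * a)).comp_mul d, fun _ _ => hE.2.2 _ _⟩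

theorem Bi.swap {q : O} {E : O → O → ℂ} (hE : Bi q E) : Bi q fun a b => E b a :=
  ⟨fun b => hE.2.1 b, fun a => hE.1 a, fun _ _ => hE.2.2 _ _⟩

theorem Cls.bi {q : O} {κ : O → ℂ} (h : Cls q κ) : Bi q fun a b => conj (κ a) * κ b :=
  ⟨fun b => h.1.conj.mul (fun _ _ _ => rfl), fun a => Per.mul (fun _ _ _ => rfl) h.1,
    fun a b => by
      rw [norm_mul, Complex.norm_conj]; exact mul_le_one₀ (h.2 a) (norm_nonneg _) (h.2 b)⟩

theorem Cls.bi' {q : O} {κ : O → ℂ} (h : Cls q κ) : Bi q fun a b => κ a * conj (κ b) := by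
  have := h.bi.swap
  simpa only [mul_comm] using this

theorem Sext.bi (S : Sext) : Bi S.q S.Esg := ⟨S.Esg_per_left, S.Esg_per_right, S.norm_Esg⟩

theorem bil_le {q : O} [NeZero q] {E : O → O → ℂ} (hE : Bi q E) (T : Finset O) (x y : O → ℂ) :
    ‖∑ n1 ∈ T, ∑ n2 ∈ T, E n1 n2 * (conj (x n1) * y n2)‖ ≤
      N q * ((cl q T x + cl q T y) / 2) := by
  classical
  set X : Rs q → ℂ := fun i => ∑ n ∈ T, ind q i n * x n with hX
  set Y : Rs q → ℂ := fun i => ∑ n ∈ T, ind q i n * y n with hY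
  have h1 : ∀ n1 n2, E n1 n2 = ∑ i : Rs q, ∑ j : Rs q,
      E (Quotient.out i) (Quotient.out j) * (ind q i n1 * ind q j n2) := by
    intro n1 n2
    rw [sum_eq_single (rs q n1), sum_eq_single (rs q n2)]
    · simp only [ind, if_true, mul_one]
      rw [(hE.2.1 _).out n2]
      exact ((hE.1 n2).out n1).symm
    · intro j _ hj
      simp [ind, hj.symm]
    · simp
    · intro i _ hi
      exact sum_eq_zero fun j _ => by simp [ind, hi.symm]
    · simp
  have h2 : ∑ n1 ∈ T, ∑ n2 ∈ T, E n1 n2 * (conj (x n1) * y n2) =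
      ∑ i : Rs q, ∑ j : Rs q, E (Quotient.out i) (Quotient.out j) * (conj (X i) * Y j) := by
    have h3 : ∀ i j : Rs q, E (Quotient.out i) (Quotient.out j) * (conj (X i) * Y j) =
        ∑ n1 ∈ T, ∑ n2 ∈ T, E (Quotient.out i) (Quotient.out j) * (ind q i n1 * ind q j n2) *
          (conj (x n1) * y n2) := by
      intro i j
      simp only [hX, hY]
      rw [map_sum, sum_mul_sum, mul_sum]
      refine sum_congr rfl fun n1 _ => ?_
      rw [mul_sum]
      refine sum_congr rfl fun n2 _ => ?_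
      rw [map_mul, conj_ind]; ring
    simp only [h3]
    calc ∑ n1 ∈ T, ∑ n2 ∈ T, E n1 n2 * (conj (x n1) * y n2)
        = ∑ n1 ∈ T, ∑ n2 ∈ T, ∑ i : Rs q, ∑ j : Rs q,
          E (Quotient.out i) (Quotient.out j) * (ind q i n1 * ind q j n2) *
            (conj (x n1) * y n2) := by
          refine sum_congr rfl fun n1 _ => sum_congr rfl fun n2 _ => ?_
          rw [h1 n1 n2, sum_mul]
          exact sum_congr rfl fun i _ => by rw [sum_mul]
      _ = ∑ n1 ∈ T, ∑ i : Rs q, ∑ n2 ∈ T, ∑ j : Rs q,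
          E (Quotient.out i) (Quotient.out j) * (ind q i n1 * ind q j n2) *
            (conj (x n1) * y n2) := sum_congr rfl fun n1 _ => sum_comm
      _ = ∑ i : Rs q, ∑ n1 ∈ T, ∑ n2 ∈ T, ∑ j : Rs q,
          E (Quotient.out i) (Quotient.out j) * (ind q i n1 * ind q j n2) *
            (conj (x n1) * y n2) := sum_comm
      _ = ∑ i : Rs q, ∑ n1 ∈ T, ∑ j : Rs q, ∑ n2 ∈ T,
          E (Quotient.out i) (Quotient.out j) * (ind q i n1 * ind q j n2) *
            (conj (x n1) * y n2) :=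
          sum_congr rfl fun i _ => sum_congr rfl fun n1 _ => sum_comm
      _ = _ := sum_congr rfl fun i _ => sum_comm
  rw [h2]
  calc ‖∑ i : Rs q, ∑ j : Rs q, E (Quotient.out i) (Quotient.out j) * (conj (X i) * Y j)‖
      ≤ ∑ i : Rs q, ∑ j : Rs q, (‖X i‖ ^ 2 + ‖Y j‖ ^ 2) / 2 := by
        refine (norm_sum_le _ _).trans (sum_le_sum fun i _ => ?_)
        refine (norm_sum_le _ _).trans (sum_le_sum fun j _ => ?_)
        rw [norm_mul, norm_mul, Complex.norm_conj]
        have := hE.2.2 (Quotient.out i) (Quotient.out j)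
        have h4 : 0 ≤ ‖X i‖ * ‖Y j‖ := by positivity
        nlinarith [sq_nonneg (‖X i‖ - ‖Y j‖)]
    _ = N q * ((cl q T x + cl q T y) / 2) := by
        simp only [add_div, sum_add_distrib, sum_const, card_univ, fcard_Rs, nsmul_eq_mul,
          ← mul_sum, ← sum_div, cl, hX, hY]
        ring

theorem bil_le' {q : O} [NeZero q] {E : O → O → ℂ} (hE : Bi q E) (T : Finset O) (x : O → ℂ) :
    ‖∑ n1 ∈ T, ∑ n2 ∈ T, E n1 n2 * (conj (x n1) * x n2)‖ ≤ N q * cl q T x := by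
  have := bil_le hE T x x
  linarith

theorem lin_le {q : O} [NeZero q] {κ : O → ℂ} (h : Cls q κ) (T : Finset O) (x : O → ℂ) :
    ‖∑ n ∈ T, κ n * x n‖ ^ 2 ≤ N q * cl q T x := by
  refine le_trans (le_of_eq ?_) (bil_le' h.bi T x)
  have : ∑ n1 ∈ T, ∑ n2 ∈ T, conj (κ n1) * κ n2 * (conj (x n1) * x n2) =
      conj (∑ n ∈ T, κ n * x n) * ∑ n ∈ T, κ n * x n := by
    rw [map_sum, sum_mul_sum]
    exact sum_congr rfl fun n1 _ => sum_congr rfl fun n2 _ => by rw [map_mul]; ring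
  rw [this, norm_mul, Complex.norm_conj, sq]

/-! ### dyadic tails -/

/-- the polynomial weight -/
noncomputable def om4 (x : ℝ) : ℝ := ((1 + x) ^ 4)⁻¹

theorem om4_nonneg (x : ℝ) : 0 ≤ om4 x := by unfold om4; positivity

theorem om4_anti {x y : ℝ} (hx : 0 ≤ x) (h : x ≤ y) : om4 y ≤ om4 x := by
  unfold om4; gcongr

theorem om4_le_one {x : ℝ} (hx : 0 ≤ x) : om4 x ≤ 1 := by
  unfold om4
  exact inv_le_one_of_one_le₀ (one_le_pow₀ (by linarith))

theorem one_le_om4 {x : ℝ} (hx : 0 ≤ x) (h : x ≤ 1) : 1 ≤ 16 * om4 x := by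
  unfold om4
  rw [← div_eq_mul_inv, one_le_div (by positivity)]
  calc (1 + x) ^ 4 ≤ 2 ^ 4 := by gcongr; linarith
    _ = 16 := by norm_num

theorem inv_le_om4 {x : ℝ} (h : 1 ≤ x) : (x ^ 4)⁻¹ ≤ 16 * om4 x := by
  unfold om4
  rw [← div_eq_mul_inv, inv_eq_one_div, div_le_div_iff₀ (by positivity) (by positivity)]
  calc 1 * (1 + x) ^ 4 ≤ 1 * (2 * x) ^ 4 := by gcongr; linarith
    _ = 16 * x ^ 4 := by ring

theorem exp_le_om4 {x : ℝ} (hx : 0 ≤ x) : Real.exp (-x) ≤ 72 * om4 x := by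
  unfold om4
  have h1 : (1 + x) ^ 4 / (Nat.factorial 4 : ℝ) ≤ Real.exp (1 + x) :=
    Real.pow_div_factorial_le_exp _ (by linarith) 4
  have h2 : (Nat.factorial 4 : ℝ) = 24 := by norm_num [Nat.factorial]
  rw [h2, Real.exp_add] at h1
  have h3 : Real.exp 1 ≤ 3 := by have := Real.exp_one_lt_d9; linarith
  rw [← div_eq_mul_inv, le_div_iff₀ (by positivity), Real.exp_neg, inv_mul_le_iff₀ (Real.exp_pos x)]
  have h4 := Real.exp_pos x
  nlinarith

theorem om4_sum_le {f : O → ℝ} (hf : ∀ h, 0 ≤ f h) {Y G : ℝ} (hY : 0 < Y)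
    (hG : ∀ y, Y ≤ y → ∑ h ∈ Hn y, f h ≤ G * (y / Y) ^ 3) (F : Finset O) (hF : ∀ h ∈ F, h ≠ 0) :
    ∑ h ∈ F, om4 (N h / Y) * f h ≤ 17 * G := by
  classical
  have hG0 : 0 ≤ G := by
    have h1 := hG Y le_rfl
    rw [div_self hY.ne', one_pow, mul_one] at h1
    exact (sum_nonneg fun h _ => hf h).trans h1
  have key : ∀ J : ℕ, ∑ h ∈ Hn (2 ^ J * Y), om4 (N h / Y) * f h ≤ (17 - 16 / 2 ^ J) * G := by
    intro J
    induction J with
    | zero =>
      have h1 := hG Y le_rfl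
      rw [div_self hY.ne', one_pow, mul_one] at h1
      rw [pow_zero, one_mul]
      calc ∑ h ∈ Hn Y, om4 (N h / Y) * f h ≤ ∑ h ∈ Hn Y, f h :=
            sum_le_sum fun h _ => mul_le_of_le_one_left (hf h) (om4_le_one (by positivity))
        _ ≤ _ := by linarith
    | succ J ih =>
      have hJY : (0 : ℝ) < 2 ^ J * Y := by positivity
      have hsub : Hn (2 ^ J * Y) ⊆ Hn (2 ^ (J + 1) * Y) := Hn_mono (by rw [pow_succ]; linarith)
      rw [← sum_sdiff hsub]
      have h2 : ∑ h ∈ Hn (2 ^ (J + 1) * Y) \ Hn (2 ^ J * Y), om4 (N h / Y) * f h ≤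
          8 / 2 ^ J * G := by
        have h3 := hG (2 ^ (J + 1) * Y) (le_mul_of_one_le_left hY.le (one_le_pow₀ (by norm_num)))
        rw [mul_div_assoc, div_self hY.ne', mul_one] at h3
        calc ∑ h ∈ Hn (2 ^ (J + 1) * Y) \ Hn (2 ^ J * Y), om4 (N h / Y) * f h
            ≤ ∑ h ∈ Hn (2 ^ (J + 1) * Y) \ Hn (2 ^ J * Y), (((2 : ℝ) ^ J) ^ 4)⁻¹ * f h := by
              refine sum_le_sum fun h hh => ?_
              rw [mem_sdiff, mem_Hn, mem_Hn] at hh
              have h4 : 2 ^ J * Y < N h := by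
                by_contra h5
                exact hh.2 ⟨not_lt.1 h5, hh.1.2⟩
              have h5 : (2 : ℝ) ^ J ≤ N h / Y := by rw [le_div_iff₀ hY]; exact h4.le
              refine mul_le_mul_of_nonneg_right ?_ (hf h)
              unfold om4
              gcongr
              linarith
          _ ≤ ∑ h ∈ Hn (2 ^ (J + 1) * Y), (((2 : ℝ) ^ J) ^ 4)⁻¹ * f h :=
              sum_le_sum_of_subset_of_nonneg sdiff_subset fun h _ _ => by
                have := hf h; positivity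
          _ = (((2 : ℝ) ^ J) ^ 4)⁻¹ * ∑ h ∈ Hn (2 ^ (J + 1) * Y), f h := by rw [mul_sum]
          _ ≤ (((2 : ℝ) ^ J) ^ 4)⁻¹ * (G * (2 ^ (J + 1)) ^ 3) := by gcongr
          _ = 8 / 2 ^ J * G := by rw [pow_succ (2 : ℝ) J]; field_simp; ring
      have h6 : (17 - 16 / 2 ^ (J + 1) : ℝ) = 8 / 2 ^ J + (17 - 16 / 2 ^ J) := by
        rw [pow_succ]; field_simp; ring
      rw [h6, add_mul]
      exact add_le_add h2 ih
  obtain ⟨J, hJ⟩ : ∃ J : ℕ, F ⊆ Hn (2 ^ J * Y) := by
    obtain ⟨J, hJ⟩ := pow_unbounded_of_one_lt ((∑ h ∈ F, (N h : ℝ)) / Y) (by norm_num : (1 : ℝ) < 2)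
    refine ⟨J, fun h hh => ?_⟩
    rw [mem_Hn]
    refine ⟨?_, hF h hh⟩
    rw [div_lt_iff₀ hY] at hJ
    exact (single_le_sum (f := fun h => (N h : ℝ)) (fun _ _ => by positivity) hh).trans hJ.le
  calc ∑ h ∈ F, om4 (N h / Y) * f h ≤ ∑ h ∈ Hn (2 ^ J * Y), om4 (N h / Y) * f h :=
        sum_le_sum_of_subset_of_nonneg hJ fun h _ _ => mul_nonneg (om4_nonneg _) (hf h)
    _ ≤ (17 - 16 / 2 ^ J) * G := key J
    _ ≤ 17 * G := by
        have : (0 : ℝ) ≤ 16 / 2 ^ J := by positivity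
        nlinarith

/-- a bound for all finite partial sums of norms bounds the norm of the sum -/
theorem norm_tsum_le_of_sum_le {G : O → ℂ} {B : ℝ} (h : ∀ F : Finset O, ∑ u ∈ F, ‖G u‖ ≤ B) :
    ‖∑' u, G u‖ ≤ B := by
  have hs : Summable fun u => ‖G u‖ := summable_of_sum_le (fun _ => norm_nonneg _) h
  exact (norm_tsum_le_tsum_norm hs).trans (hs.tsum_le_of_sum_le h)

open Classical in
theorem norm_tsum_le_split {G : O → ℂ} {B : ℝ}
    (h : ∀ F : Finset O, (∀ u ∈ F, u ≠ 0) → ∑ u ∈ F, ‖G u‖ ≤ B) :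
    ‖∑' u, G u‖ ≤ ‖G 0‖ + B := by
  refine norm_tsum_le_of_sum_le fun F => ?_
  have h1 := h (F.erase 0) fun u hu => (mem_erase.1 hu).1
  by_cases h0 : (0 : O) ∈ F
  · rw [← add_sum_erase F _ h0]; linarith
  · rw [erase_eq_of_notMem h0] at h1
    linarith [norm_nonneg (G 0)]

/-! ### separation of variables -/

theorem sum_norm_integral_le {ι : Type*} (I : Finset ι) (c : ι → ℝ) (hc : ∀ i ∈ I, 0 ≤ c i)
    (F : ι → ℝ → ℂ) (hF : ∀ i ∈ I, Integrable (F i)) {B : ℝ → ℝ} (hB : Integrable B)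
    (h : ∀ τ, ∑ i ∈ I, c i * ‖F i τ‖ ≤ B τ) : ∑ i ∈ I, c i * ‖∫ τ, F i τ‖ ≤ ∫ τ, B τ := by
  calc ∑ i ∈ I, c i * ‖∫ τ, F i τ‖ ≤ ∑ i ∈ I, ∫ τ, c i * ‖F i τ‖ := by
        refine sum_le_sum fun i hi => ?_
        rw [integral_const_mul]
        exact mul_le_mul_of_nonneg_left (norm_integral_le_integral_norm _) (hc i hi)
    _ = ∫ τ, ∑ i ∈ I, c i * ‖F i τ‖ :=
        (integral_finsetSum _ fun i hi => (hF i hi).norm.const_mul _).symm
    _ ≤ ∫ τ, B τ :=
        integral_mono (integrable_finsetSum _ fun i hi => (hF i hi).norm.const_mul _) hB h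

theorem continuous_cpow_line {x : ℝ} (hx : 0 < x) {w : ℝ → ℂ} (hw : Continuous w) :
    Continuous fun τ => (x : ℂ) ^ (w τ) :=
  hw.const_cpow (Or.inl (by exact_mod_cast hx.ne'))

theorem sepS {σ : ℝ} (hσ : 0 < σ) (K : ℕ) : ∃ C : ℝ, 0 ≤ C ∧
    ∀ (q : O) [NeZero q] {ι : Type} (I : Finset ι) (T : Finset O) (c y : ι → ℝ)
      (E : ι → O → O → ℂ) (z : ι → O → ℂ) (x : ι → O → ℝ) (G : ℝ),
      (∀ i ∈ I, 0 ≤ c i) → (∀ i ∈ I, 0 < y i) → (∀ i ∈ I, ∀ n ∈ T, 0 < x i n) →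
      (∀ i ∈ I, Bi q (E i)) →
      (∀ τ : ℝ, ∑ i ∈ I, c i * (y i ^ (-σ) *
        cl q T (fun n => z i n * (x i n : ℂ) ^ ((σ : ℂ) + τ * Complex.I))) ≤ G * (1 + |τ|) ^ K) →
      ∑ i ∈ I, c i * ‖∑ n1 ∈ T, ∑ n2 ∈ T, E i n1 n2 * (conj (z i n1) * z i n2) *
        ((Real.exp (-(y i / (x i n1 * x i n2))) : ℝ) : ℂ)‖ ≤ C * (N q * G) := by
  obtain ⟨ρ, hρ, hrep⟩ := mellin_exp hσ
  refine ⟨∫ τ : ℝ, ‖ρ τ‖ * (1 + |τ|) ^ K, integral_nonneg fun τ => by positivity, ?_⟩
  intro q _ ι I T c y E z x G hc hy hx hE hG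
  set Z : ι → ℝ → O → ℂ := fun i τ n => z i n * (x i n : ℂ) ^ ((σ : ℂ) + τ * Complex.I) with hZ
  set F : ι → ℝ → ℂ := fun i τ => ρ τ * ((y i : ℂ) ^ (-((σ : ℂ) + τ * Complex.I)) *
    ∑ n1 ∈ T, ∑ n2 ∈ T, E i n1 n2 * (conj (Z i (-τ) n1) * Z i τ n2)) with hF
  have hterm : ∀ i ∈ I, ∀ τ, F i τ = ∑ n1 ∈ T, ∑ n2 ∈ T, E i n1 n2 * (conj (z i n1) * z i n2) *
      (ρ τ * ((y i / (x i n1 * x i n2) : ℝ) : ℂ) ^ (-((σ : ℂ) + τ * Complex.I))) := by
    intro i hi τ
    simp only [hF, hZ]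
    rw [mul_sum, mul_sum]
    refine sum_congr rfl fun n1 h1 => ?_
    rw [mul_sum, mul_sum]
    refine sum_congr rfl fun n2 h2 => ?_
    have p1 := hx i hi n1 h1
    have p2 := hx i hi n2 h2
    have py := hy i hi
    rw [map_mul, conj_cpow_pos p1]
    have e1 : conj ((σ : ℂ) + ((-τ : ℝ) : ℂ) * Complex.I) = (σ : ℂ) + τ * Complex.I := by
      simp only [map_add, map_mul, conj_ofReal, conj_I]
      push_cast; ring
    have e3 : ((y i / (x i n1 * x i n2) : ℝ) : ℂ) ^ (-((σ : ℂ) + τ * Complex.I)) =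
        (y i : ℂ) ^ (-((σ : ℂ) + τ * Complex.I)) * ((x i n1 : ℂ) ^ ((σ : ℂ) + τ * Complex.I) *
          (x i n2 : ℂ) ^ ((σ : ℂ) + τ * Complex.I)) := by
      have h1 : (y i / (x i n1 * x i n2) : ℝ) = y i * ((x i n1)⁻¹ * (x i n2)⁻¹) := by
        rw [div_eq_mul_inv, mul_inv]
      rw [h1, ofReal_mul, mul_cpow_ofReal_nonneg py.le (by positivity), ofReal_mul,
        mul_cpow_ofReal_nonneg (by positivity) (by positivity), ofReal_inv, ofReal_inv,
        inv_cpow _ _ (by rw [arg_ofReal_of_nonneg p1.le]; exact Real.pi_ne_zero.symm),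
        inv_cpow _ _ (by rw [arg_ofReal_of_nonneg p2.le]; exact Real.pi_ne_zero.symm),
        cpow_neg (x i n1 : ℂ), cpow_neg (x i n2 : ℂ), inv_inv, inv_inv]
    rw [e1, e3]
    ring
  have hint : ∀ v : ℝ, 0 < v → Integrable fun τ : ℝ =>
      ρ τ * (v : ℂ) ^ (-((σ : ℂ) + τ * Complex.I)) := by
    intro v hv
    refine hρ.integrable_mul_bdd (continuous_cpow_line hv (by fun_prop)) (M := v ^ (-σ)) fun τ => ?_
    rw [norm_cpow_eq_rpow_re_of_pos hv]
    simp
  have hFi : ∀ i ∈ I, Integrable (F i) := by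
    intro i hi
    have : F i = fun τ => ∑ n1 ∈ T, ∑ n2 ∈ T, E i n1 n2 * (conj (z i n1) * z i n2) *
      (ρ τ * ((y i / (x i n1 * x i n2) : ℝ) : ℂ) ^ (-((σ : ℂ) + τ * Complex.I))) :=
      funext (hterm i hi)
    rw [this]
    refine integrable_finsetSum _ fun n1 h1 => integrable_finsetSum _ fun n2 h2 => ?_
    have p1 := hx i hi n1 h1
    have p2 := hx i hi n2 h2
    have py := hy i hi
    exact (hint _ (by positivity)).const_mul _
  have hFint : ∀ i ∈ I, ∫ τ, F i τ = ∑ n1 ∈ T, ∑ n2 ∈ T, E i n1 n2 * (conj (z i n1) * z i n2) *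
        ((Real.exp (-(y i / (x i n1 * x i n2))) : ℝ) : ℂ) := by
    intro i hi
    rw [integral_congr_ae (Filter.Eventually.of_forall (hterm i hi)), integral_finsetSum]
    · refine sum_congr rfl fun n1 h1 => ?_
      rw [integral_finsetSum]
      · refine sum_congr rfl fun n2 h2 => ?_
        have p1 := hx i hi n1 h1
        have p2 := hx i hi n2 h2
        have py := hy i hi
        rw [integral_const_mul, hrep _ (by positivity)]
      · intro n2 h2
        have p1 := hx i hi n1 h1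
        have p2 := hx i hi n2 h2
        have py := hy i hi
        exact (hint _ (by positivity)).const_mul _
    · intro n1 h1
      refine integrable_finsetSum _ fun n2 h2 => ?_
      have p1 := hx i hi n1 h1
      have p2 := hx i hi n2 h2
      have py := hy i hi
      exact (hint _ (by positivity)).const_mul _
  have hB : Integrable fun τ : ℝ => ‖ρ τ‖ * (1 + |τ|) ^ K * (N q * G) :=
    (hρ.integrable_mul K).mul_const _
  have key := sum_norm_integral_le I c hc F hFi hB fun τ => ?_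
  · rw [integral_mul_const] at key
    refine le_trans (le_of_eq ?_) key
    exact sum_congr rfl fun i hi => by rw [hFint i hi]
  · have h1 := hG τ
    have h2 := hG (-τ)
    rw [abs_neg] at h2
    calc ∑ i ∈ I, c i * ‖F i τ‖ ≤ ∑ i ∈ I, c i * (‖ρ τ‖ * (y i ^ (-σ) *
          (N q * ((cl q T (Z i (-τ)) + cl q T (Z i τ)) / 2)))) := by
          refine sum_le_sum fun i hi => mul_le_mul_of_nonneg_left ?_ (hc i hi)
          simp only [hF]
          rw [norm_mul, norm_mul, norm_cpow_eq_rpow_re_of_pos (hy i hi)]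
          have e : (-((σ : ℂ) + τ * Complex.I)).re = -σ := by simp
          rw [e]
          have := hy i hi
          gcongr
          exact bil_le (hE i hi) T _ _
      _ = ‖ρ τ‖ * N q * ((∑ i ∈ I, c i * (y i ^ (-σ) * cl q T (Z i (-τ))) +
            ∑ i ∈ I, c i * (y i ^ (-σ) * cl q T (Z i τ))) / 2) := by
          rw [← sum_add_distrib, sum_div, mul_sum]
          exact sum_congr rfl fun i _ => by ring
      _ ≤ ‖ρ τ‖ * N q * ((G * (1 + |τ|) ^ K + G * (1 + |τ|) ^ K) / 2) := by gcongr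
      _ = _ := by ring

/-- separation of variables with the polynomial weight -/
theorem sepS2 {ε : ℝ} (hε : 0 < ε) (K : ℕ) : ∃ C : ℝ, 0 ≤ C ∧
    ∀ (q : O) [NeZero q] {ι : Type} (I : Finset ι) (T : Finset O) (c s y : ι → ℝ)
      (E : ι → O → O → ℂ) (z : ι → O → ℂ) (x : ι → O → ℝ) (G Yb : ℝ),
      1 ≤ Yb → (∀ i ∈ I, 0 ≤ c i) → (∀ i ∈ I, Yb⁻¹ ≤ s i) → (∀ i ∈ I, s i ≤ y i) →
      (∀ i ∈ I, ∀ n ∈ T, 0 < x i n) → (∀ i ∈ I, Bi q (E i)) →
      (∀ σ : ℝ, (σ = ε ∨ σ = 4) → ∀ τ : ℝ, ∑ i ∈ I, c i * (om4 (s i) *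
        cl q T (fun n => z i n * (x i n : ℂ) ^ ((σ : ℂ) + τ * Complex.I))) ≤ G * (1 + |τ|) ^ K) →
      ∑ i ∈ I, c i * ‖∑ n1 ∈ T, ∑ n2 ∈ T, E i n1 n2 * (conj (z i n1) * z i n2) *
        ((Real.exp (-(y i / (x i n1 * x i n2))) : ℝ) : ℂ)‖ ≤ C * (N q * (Yb ^ ε * G)) := by
  obtain ⟨C1, hC1, h1⟩ := sepS hε K
  obtain ⟨C2, hC2, h2⟩ := sepS (σ := 4) (by norm_num) K
  refine ⟨16 * (C1 + C2), by positivity, ?_⟩
  intro q _ ι I T c s y E z x G Yb hYb hc hs hy hx hE hG
  classical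
  have hs0 : ∀ i ∈ I, 0 < s i := fun i hi => lt_of_lt_of_le (by positivity) (hs i hi)
  have hy0 : ∀ i ∈ I, 0 < y i := fun i hi => (hs0 i hi).trans_le (hy i hi)
  have hG0 : 0 ≤ G := by
    have := hG 4 (Or.inr rfl) 0
    rw [abs_zero, add_zero, one_pow, mul_one] at this
    exact (sum_nonneg fun i hi => mul_nonneg (hc i hi)
      (mul_nonneg (om4_nonneg _) (cl_nonneg _ _ _))).trans this
  have hY1 : 1 ≤ Yb ^ ε := Real.one_le_rpow hYb hε.le
  rw [← sum_filter_add_sum_filter_not I (fun i => s i ≤ 1)]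
  have a1 := h1 q (I.filter fun i => s i ≤ 1) T c y E z x (16 * (Yb ^ ε * G))
    (fun i hi => hc i (mem_filter.1 hi).1) (fun i hi => hy0 i (mem_filter.1 hi).1)
    (fun i hi => hx i (mem_filter.1 hi).1) (fun i hi => hE i (mem_filter.1 hi).1) fun τ => by
      calc _ ≤ ∑ i ∈ I.filter (fun i => s i ≤ 1), (16 * Yb ^ ε) * (c i * (om4 (s i) *
            cl q T (fun n => z i n * (x i n : ℂ) ^ ((ε : ℂ) + τ * Complex.I)))) := by
            refine sum_le_sum fun i hi => ?_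
            rw [mem_filter] at hi
            have b1 : y i ^ (-ε) ≤ Yb ^ ε := by
              calc y i ^ (-ε) ≤ (Yb⁻¹) ^ (-ε) :=
                    Real.rpow_le_rpow_of_nonpos (by positivity) ((hs i hi.1).trans (hy i hi.1))
                      (by linarith)
                _ = Yb ^ ε := by
                    rw [Real.inv_rpow (by linarith), Real.rpow_neg (by linarith), inv_inv]
            have b2 := one_le_om4 (hs0 i hi.1).le hi.2
            have b3 := cl_nonneg q T (fun n => z i n * (x i n : ℂ) ^ ((ε : ℂ) + τ * Complex.I))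
            have b4 := hc i hi.1
            calc c i * (y i ^ (-ε) * cl q T _) ≤ c i * (Yb ^ ε * (16 * om4 (s i)) * cl q T _) := by
                  gcongr
                  exact b1.trans (le_mul_of_one_le_right (by positivity) b2)
              _ = _ := by ring
        _ ≤ ∑ i ∈ I, (16 * Yb ^ ε) * (c i * (om4 (s i) *
            cl q T (fun n => z i n * (x i n : ℂ) ^ ((ε : ℂ) + τ * Complex.I)))) :=
            sum_le_sum_of_subset_of_nonneg (filter_subset _ _) fun i hi _ =>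
              mul_nonneg (by positivity) (mul_nonneg (hc i hi)
                (mul_nonneg (om4_nonneg _) (cl_nonneg _ _ _)))
        _ ≤ (16 * Yb ^ ε) * (G * (1 + |τ|) ^ K) := by
            rw [← mul_sum]
            exact mul_le_mul_of_nonneg_left (hG ε (Or.inl rfl) τ) (by positivity)
        _ = _ := by ring
  have a2 := h2 q (I.filter fun i => ¬ s i ≤ 1) T c y E z x (16 * G)
    (fun i hi => hc i (mem_filter.1 hi).1) (fun i hi => hy0 i (mem_filter.1 hi).1)
    (fun i hi => hx i (mem_filter.1 hi).1) (fun i hi => hE i (mem_filter.1 hi).1) fun τ => by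
      calc _ ≤ ∑ i ∈ I.filter (fun i => ¬ s i ≤ 1), 16 * (c i * (om4 (s i) *
            cl q T (fun n => z i n * (x i n : ℂ) ^ (((4 : ℝ) : ℂ) + τ * Complex.I)))) := by
            refine sum_le_sum fun i hi => ?_
            rw [mem_filter] at hi
            have b0 : 1 ≤ s i := (not_le.1 hi.2).le
            have b1 : y i ^ (-(4 : ℝ)) ≤ 16 * om4 (s i) := by
              refine le_trans ?_ (inv_le_om4 b0)
              rw [Real.rpow_neg (hy0 i hi.1).le, show (4 : ℝ) = ((4 : ℕ) : ℝ) by norm_num,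
                Real.rpow_natCast]
              have := hy i hi.1
              gcongr
            have b3 := cl_nonneg q T
              (fun n => z i n * (x i n : ℂ) ^ (((4 : ℝ) : ℂ) + τ * Complex.I))
            have b4 := hc i hi.1
            calc c i * (y i ^ (-(4 : ℝ)) * cl q T _) ≤ c i * ((16 * om4 (s i)) * cl q T _) := by
                  gcongr
              _ = _ := by ring
        _ ≤ ∑ i ∈ I, 16 * (c i * (om4 (s i) *
            cl q T (fun n => z i n * (x i n : ℂ) ^ (((4 : ℝ) : ℂ) + τ * Complex.I)))) :=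
            sum_le_sum_of_subset_of_nonneg (filter_subset _ _) fun i hi _ =>
              mul_nonneg (by positivity) (mul_nonneg (hc i hi)
                (mul_nonneg (om4_nonneg _) (cl_nonneg _ _ _)))
        _ ≤ 16 * (G * (1 + |τ|) ^ K) := by
            rw [← mul_sum]
            exact mul_le_mul_of_nonneg_left (hG 4 (Or.inr rfl) τ) (by positivity)
        _ = _ := by ring
  have hq : (0 : ℝ) ≤ N q := by positivity
  have a3 : C2 * (N q * (16 * G)) ≤ C2 * (N q * (16 * (Yb ^ ε * G))) := by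
    gcongr
    exact le_mul_of_one_le_left hG0 hY1
  calc _ ≤ C1 * (N q * (16 * (Yb ^ ε * G))) + C2 * (N q * (16 * (Yb ^ ε * G))) :=
        add_le_add a1 (a2.trans a3)
    _ = _ := by ring

/-! ### uniformisation of lengths -/

theorem sq_integral_le {w f : ℝ → ℝ} (hw : ∀ τ, 0 ≤ w τ) (h0 : Integrable w)
    (h1 : Integrable fun τ => w τ * f τ) (h2 : Integrable fun τ => w τ * f τ ^ 2) :
    (∫ τ, w τ * f τ) ^ 2 ≤ (∫ τ, w τ) * ∫ τ, w τ * f τ ^ 2 := by
  have h : ∀ l : ℝ, 0 ≤ (∫ τ, w τ) * (l * l) + (-2 * ∫ τ, w τ * f τ) * l + ∫ τ, w τ * f τ ^ 2 := by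
    intro l
    have h3 : 0 ≤ ∫ τ, w τ * (f τ - l) ^ 2 := integral_nonneg fun τ => by
      have := hw τ; positivity
    have h4 : ∫ τ, w τ * (f τ - l) ^ 2 =
        ∫ τ, ((w τ * (l * l) + (-2 * l) * (w τ * f τ)) + w τ * f τ ^ 2) :=
      integral_congr_ae (Filter.Eventually.of_forall fun τ => by simp only; ring)
    have i1 : Integrable fun τ => w τ * (l * l) := h0.mul_const _
    have i2 : Integrable fun τ => (-2 * l) * (w τ * f τ) := h1.const_mul _
    have i3 : Integrable fun τ => w τ * (l * l) + (-2 * l) * (w τ * f τ) := i1.add i2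
    rw [h4, integral_add i3 h2, integral_add i1 i2, integral_mul_const, integral_const_mul] at h3
    linarith
  have := discrim_le_zero h
  rw [discrim] at this
  nlinarith

theorem unifU {W : ℝ → ℂ} (hW : IsWt W) : ∃ V : ℝ → ℂ, IsWt V ∧ ∀ K : ℕ, ∃ C : ℝ, 0 ≤ C ∧
    ∀ {ι : Type} (I : Finset ι) (T : Finset O) (c y : ι → ℝ) (z : ι → O → ℂ) (X t G : ℝ),
      0 < X → (∀ n ∈ T, n ≠ 0) → (∀ i ∈ I, 0 ≤ c i) → (∀ i ∈ I, 1 ≤ y i ∧ y i ≤ 2) →
      (∀ τ : ℝ, ∑ i ∈ I, c i * ‖∑ n ∈ T, z i n * wt V τ (N n / X)‖ ^ 2 ≤ G * (1 + |τ|) ^ K) →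
      ∑ i ∈ I, c i * ‖∑ n ∈ T, z i n * wt W t (N n / (X / y i))‖ ^ 2 ≤
        C * (G * (1 + |t|) ^ K) := by
  obtain ⟨V, ρ, hV, hρ, hrep⟩ := exists_unif hW
  obtain ⟨-, -, M, -, -, -, hM0, -, hM⟩ := hV.bounds
  refine ⟨V, hV, fun K => ⟨(∫ τ, ‖ρ τ‖) * ∫ τ : ℝ, ‖ρ τ‖ * (1 + |τ|) ^ K,
    mul_nonneg (integral_nonneg fun _ => norm_nonneg _) (integral_nonneg fun τ => by positivity),
    ?_⟩⟩
  intro ι I T c y z X t G hX hT hc hy hG
  have hG0 : 0 ≤ G := by
    have := hG 0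
    rw [abs_zero, add_zero, one_pow, mul_one] at this
    exact (sum_nonneg fun i hi => mul_nonneg (hc i hi) (by positivity)).trans this
  set φ : ι → ℝ → ℂ := fun i τ => ∑ n ∈ T, z i n * wt V (t + τ) (N n / X) with hφ
  have hx : ∀ n ∈ T, (0 : ℝ) < N n / X := fun n hn => div_pos (N_pos' (hT n hn)) hX
  have hwc : ∀ n ∈ T, Continuous fun τ : ℝ => wt V (t + τ) (N n / X) := by
    intro n hn
    unfold wt
    exact continuous_const.mul (continuous_cpow_line (hx n hn) (by fun_prop))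
  have hφc : ∀ i, Continuous (φ i) := fun i =>
    continuous_finsetSum _ fun n hn => continuous_const.mul (hwc n hn)
  have hφb : ∀ i τ, ‖φ i τ‖ ≤ ∑ n ∈ T, ‖z i n‖ * M := by
    intro i τ
    refine (norm_sum_le _ _).trans (sum_le_sum fun n hn => ?_)
    rw [norm_mul, norm_wt (hx n hn)]
    exact mul_le_mul_of_nonneg_left (hM _) (norm_nonneg _)
  have hrep2 : ∀ i ∈ I, ∑ n ∈ T, z i n * wt W t (N n / (X / y i)) =
      ∫ τ : ℝ, ρ τ * ((y i : ℂ) ^ (((t + τ : ℝ) : ℂ) * Complex.I) * φ i τ) := by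
    intro i hi
    have hy0 : 0 < y i := by linarith [(hy i hi).1]
    have h1 : ∀ n ∈ T, z i n * wt W t (N n / (X / y i)) = ∫ τ : ℝ, z i n *
        (ρ τ * ((y i : ℂ) ^ (((t + τ : ℝ) : ℂ) * Complex.I) * wt V (t + τ) (N n / X))) := by
      intro n hn
      have e : (N n : ℝ) / (X / y i) = N n / X * y i := by field_simp
      rw [e, hrep t _ _ (hx n hn) (hy i hi).1 (hy i hi).2, integral_const_mul]
    rw [sum_congr rfl h1, ← integral_finsetSum]
    · refine integral_congr_ae (Filter.Eventually.of_forall fun τ => ?_)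
      simp only [hφ]
      rw [mul_sum, mul_sum]
      exact sum_congr rfl fun n _ => by ring
    · intro n hn
      refine Integrable.const_mul ?_ _
      refine hρ.integrable_mul_bdd ((continuous_cpow_line hy0 (by fun_prop)).mul (hwc n hn))
        (M := M) fun τ => ?_
      rw [norm_mul, norm_cpow_I hy0, one_mul, norm_wt (hx n hn)]
      exact hM _
  have hi1 : ∀ i, Integrable fun τ => ‖ρ τ‖ * ‖φ i τ‖ := by
    intro i
    have := (hρ.integrable_mul_bdd (hφc i) (hφb i)).norm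
    simpa only [norm_mul] using this
  have hi2 : ∀ i, Integrable fun τ => ‖ρ τ‖ * ‖φ i τ‖ ^ 2 := by
    intro i
    have := (hρ.integrable_mul_bdd (φ := fun τ => φ i τ * φ i τ) ((hφc i).mul (hφc i))
      (M := (∑ n ∈ T, ‖z i n‖ * M) * ∑ n ∈ T, ‖z i n‖ * M) fun τ => by
        rw [norm_mul]
        exact mul_le_mul (hφb i τ) (hφb i τ) (norm_nonneg _)
          ((norm_nonneg _).trans (hφb i τ))).norm
    simpa only [norm_mul, sq] using this
  have hR0 : 0 ≤ ∫ τ, ‖ρ τ‖ := integral_nonneg fun _ => norm_nonneg _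
  calc ∑ i ∈ I, c i * ‖∑ n ∈ T, z i n * wt W t (N n / (X / y i))‖ ^ 2
      ≤ ∑ i ∈ I, c i * ((∫ τ, ‖ρ τ‖) * ∫ τ, ‖ρ τ‖ * ‖φ i τ‖ ^ 2) := by
        refine sum_le_sum fun i hi => mul_le_mul_of_nonneg_left ?_ (hc i hi)
        have hy0 : 0 < y i := by linarith [(hy i hi).1]
        rw [hrep2 i hi]
        refine le_trans ?_ (sq_integral_le (fun τ => norm_nonneg (ρ τ)) hρ.integrable.norm
          (hi1 i) (hi2 i))
        gcongr
        refine (norm_integral_le_integral_norm _).trans (le_of_eq ?_)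
        refine integral_congr_ae (Filter.Eventually.of_forall fun τ => ?_)
        simp only
        rw [norm_mul, norm_mul, norm_cpow_I hy0, one_mul]
    _ = (∫ τ, ‖ρ τ‖) * ∫ τ, ∑ i ∈ I, c i * (‖ρ τ‖ * ‖φ i τ‖ ^ 2) := by
        rw [integral_finsetSum _ fun i _ => (hi2 i).const_mul _, mul_sum]
        exact sum_congr rfl fun i _ => by rw [integral_const_mul]; ring
    _ ≤ (∫ τ, ‖ρ τ‖) * ∫ τ : ℝ, ‖ρ τ‖ * (1 + |τ|) ^ K * (G * (1 + |t|) ^ K) := by
        refine mul_le_mul_of_nonneg_left ?_ hR0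
        refine integral_mono (integrable_finsetSum _ fun i _ => (hi2 i).const_mul _)
          ((hρ.integrable_mul K).mul_const _) fun τ => ?_
        have h1 := hG (t + τ)
        have h2 : (1 + |t + τ|) ^ K ≤ ((1 + |τ|) * (1 + |t|)) ^ K := by
          gcongr
          have := abs_add_le t τ
          nlinarith [abs_nonneg t, abs_nonneg τ, mul_nonneg (abs_nonneg t) (abs_nonneg τ)]
        calc ∑ i ∈ I, c i * (‖ρ τ‖ * ‖φ i τ‖ ^ 2)
            = ‖ρ τ‖ * ∑ i ∈ I, c i * ‖φ i τ‖ ^ 2 := by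
              rw [mul_sum]; exact sum_congr rfl fun i _ => by ring
          _ ≤ ‖ρ τ‖ * (G * ((1 + |τ|) * (1 + |t|)) ^ K) := by
              gcongr
              exact h1.trans (by gcongr)
          _ = _ := by rw [mul_pow]; ring
    _ = _ := by rw [integral_mul_const]; ring

end Vale.Agent.P026Z.Poi
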